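import Vale.Agent.Results.P160.A00_height

/-!
A master bound for kernel vectors with low complexity. If `𝔎` is a family of at most `n^(β n)`
subspaces of `ℝ^n`, each of dimension at most `δ n`, with `β + δ/2 < 1/2`, then the kernel of a
symmetric random sign matrix meets the union of `𝔎` nontrivially with probability at most
`(1/2 + ε)^n` for large `n`, uniformly in `𝔎`.

For a subspace `K`, a set `T` of `t` coordinates and the rows off `T`: as long as the current solution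
space holds a vector nonvanishing on `T`, Littlewood-Offord says the next row cuts the dimension
unless its signs on `T` fall in a set of `C(t, t/2)` sign vectors.
-/

open Finset Filter Topology
open Vale.Agent.Results.P160.A_polyfactor Vale.Agent.Results.P160.A0_sparse
open Vale.Agent.Results.P160.A00_height

namespace Vale.Agent.Results.P160.A000_subspaces

section Rows

variable {V : Type*} [AddCommGroup V] [Module ℝ V] [FiniteDimensional ℝ V]
variable {ι : Type*} [Fintype ι] [DecidableEq ι]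

/-- The solutions of one row equation: signs `g` on the coordinates `ev`, plus a fixed functional. -/
def hypB (ev : ι → V →ₗ[ℝ] ℝ) (b : V →ₗ[ℝ] ℝ) (g : ι → ℤˣ) : Submodule ℝ V :=
  LinearMap.ker ((∑ a, (((g a : ℤˣ) : ℤ) : ℝ) • ev a) + b)

omit [FiniteDimensional ℝ V] [DecidableEq ι] in
lemma mem_hypB {ev : ι → V →ₗ[ℝ] ℝ} {b : V →ₗ[ℝ] ℝ} {g : ι → ℤˣ} {x : V} :
    x ∈ hypB ev b g ↔ ∑ a, (((g a : ℤˣ) : ℤ) : ℝ) * ev a x + b x = 0 := by
  simp [hypB, LinearMap.mem_ker, LinearMap.sum_apply]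

open Classical in
/-- The row tuples leaving a solution in `K` which is nonzero on all coordinates. -/
noncomputable def badB (ev : ι → V →ₗ[ℝ] ℝ) (m : ℕ) (b : Fin m → V →ₗ[ℝ] ℝ)
    (K : Submodule ℝ V) : Finset (Fin m → ι → ℤˣ) :=
  Finset.univ.filter (fun ρ => ∃ x ∈ K, (∀ a, ev a x ≠ 0) ∧ ∀ i, x ∈ hypB ev (b i) (ρ i))

/-- The row exposure bound with Littlewood-Offord. -/
theorem badB_card [Nonempty ι] (ev : ι → V →ₗ[ℝ] ℝ) (m : ℕ) : ∀ (b : Fin m → V →ₗ[ℝ] ℝ)
    (K : Submodule ℝ V),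
    (badB ev m b K).card * ((Fintype.card ι).choose (Fintype.card ι / 2)) ^ Module.finrank ℝ K
      ≤ S m (Module.finrank ℝ K) * ((Fintype.card ι).choose (Fintype.card ι / 2)) ^ m
        * (Fintype.card (ι → ℤˣ)) ^ Module.finrank ℝ K := by
  classical
  set C := (Fintype.card ι).choose (Fintype.card ι / 2) with hC
  set N := Fintype.card (ι → ℤˣ) with hN
  have hNval : N = 2 ^ Fintype.card ι := by
    rw [hN, Fintype.card_fun, Fintype.card_units_int]
  have hCN : C ≤ N := by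
    rw [hNval]
    exact Nat.choose_le_two_pow _ _
  have hgoodne : ∀ x : V, (∀ a, ev a x ≠ 0) → x ≠ 0 := by
    intro x hx h0
    obtain ⟨a⟩ := ‹Nonempty ι›
    exact hx a (by rw [h0, map_zero])
  induction m with
  | zero =>
    intro b K
    by_cases hex : ∃ x ∈ K, ∀ a, ev a x ≠ 0
    · obtain ⟨x, hxK, hxg⟩ := hex
      have hK : K ≠ ⊥ := by
        intro h
        rw [h, Submodule.mem_bot] at hxK
        exact hgoodne x hxg hxK
      have h1 : 1 ≤ Module.finrank ℝ K := Submodule.one_le_finrank_iff.mpr hK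
      have h2 : 1 ≤ S 0 (Module.finrank ℝ K) := by
        unfold S
        calc 1 = Nat.choose 0 0 := rfl
          _ ≤ _ := Finset.single_le_sum (f := fun j => Nat.choose 0 j)
              (fun _ _ => Nat.zero_le _) (Finset.mem_range.mpr h1)
      have h3 : (badB ev 0 b K).card ≤ 1 := by
        calc (badB ev 0 b K).card ≤ Fintype.card (Fin 0 → ι → ℤˣ) := Finset.card_le_univ _
          _ = 1 := by simp
      calc (badB ev 0 b K).card * C ^ Module.finrank ℝ K
          ≤ 1 * N ^ Module.finrank ℝ K :=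
            Nat.mul_le_mul h3 (Nat.pow_le_pow_left hCN _)
        _ ≤ S 0 (Module.finrank ℝ K) * C ^ 0 * N ^ Module.finrank ℝ K := by
            refine Nat.mul_le_mul_right _ ?_
            simpa using h2
    · have : badB ev 0 b K = ∅ := by
        rw [Finset.eq_empty_iff_forall_notMem]
        intro ρ hρ
        simp only [badB, Finset.mem_filter, Finset.mem_univ, true_and] at hρ
        obtain ⟨x, hxK, hxg, _⟩ := hρ
        exact hex ⟨x, hxK, hxg⟩
      simp [this]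
  | succ m ih =>
    intro b K
    by_cases hex : ∃ x ∈ K, ∀ a, ev a x ≠ 0
    swap
    · have : badB ev (m + 1) b K = ∅ := by
        rw [Finset.eq_empty_iff_forall_notMem]
        intro ρ hρ
        simp only [badB, Finset.mem_filter, Finset.mem_univ, true_and] at hρ
        obtain ⟨x, hxK, hxg, _⟩ := hρ
        exact hex ⟨x, hxK, hxg⟩
      simp [this]
    obtain ⟨x0, hx0K, hx0g⟩ := hex
    have hK : K ≠ ⊥ := by
      intro h
      rw [h, Submodule.mem_bot] at hx0K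
      exact hgoodne x0 hx0g hx0K
    have hd : 1 ≤ Module.finrank ℝ K := Submodule.one_le_finrank_iff.mpr hK
    obtain ⟨e, he⟩ : ∃ e, Module.finrank ℝ K = e + 1 := ⟨Module.finrank ℝ K - 1, by omega⟩
    let H : (ι → ℤˣ) → Submodule ℝ V := fun g => hypB ev (b 0) g
    have hinj : (badB ev (m + 1) b K).card
        ≤ ∑ g : ι → ℤˣ, (badB ev m (Fin.tail b) (K ⊓ H g)).card := by
      rw [← Finset.card_sigma]
      refine Finset.card_le_card_of_injOn (fun ρ => ⟨ρ 0, Fin.tail ρ⟩) ?_ ?_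
      · intro ρ hρ
        obtain ⟨x, hxK, hxg, hxr⟩ : ∃ x ∈ K, (∀ a, ev a x ≠ 0) ∧ ∀ i, x ∈ hypB ev (b i) (ρ i) := by
          simpa [badB] using hρ
        simp only [Finset.coe_sigma, Set.mem_sigma_iff, Finset.coe_univ, Set.mem_univ, true_and,
          Finset.mem_coe]
        simp only [badB, Finset.mem_filter, Finset.mem_univ, true_and]
        exact ⟨x, Submodule.mem_inf.mpr ⟨hxK, hxr 0⟩, hxg, fun i => hxr i.succ⟩
      · intro ρ _ ρ' _ h
        simp only [Sigma.mk.inj_iff, heq_eq_eq] at h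
        rw [← Fin.cons_self_tail ρ, ← Fin.cons_self_tail ρ', h.1, h.2]
    set a := ((Finset.univ : Finset (ι → ℤˣ)).filter (fun g => K ≤ H g)).card with ha
    set c := ((Finset.univ : Finset (ι → ℤˣ)).filter (fun g => ¬ K ≤ H g)).card with hc
    have hac : a + c = N := by
      rw [ha, hc, Finset.card_filter_add_card_filter_not, Finset.card_univ]
    have haC : a ≤ C := by
      have h1 := lo_card (fun i => ev i x0) hx0g (-(b 0 x0))
      refine le_trans (Finset.card_le_card ?_) h1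
      intro g hg
      have hg' : K ≤ H g := (Finset.mem_filter.mp hg).2
      refine Finset.mem_filter.mpr ⟨Finset.mem_univ _, ?_⟩
      have h2 := mem_hypB.mp (hg' hx0K)
      linarith
    have hcN : c ≤ N := by omega
    set X := S m (e + 1) * C ^ m * N ^ (e + 1) with hX
    set Y := S m e * C ^ m * N ^ e * C with hY
    have hCpos : 0 < C := Nat.choose_pos (Nat.div_le_self _ _)
    have hr : ∀ g, (badB ev m (Fin.tail b) (K ⊓ H g)).card * C ^ (e + 1)
        ≤ (if K ≤ H g then X else Y) := by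
      intro g
      split_ifs with hle
      · have h1 := ih (Fin.tail b) K
        rw [inf_eq_left.mpr hle]
        rwa [he] at h1
      · have hlt : K ⊓ H g < K :=
          lt_of_le_of_ne inf_le_left (fun h => hle (inf_eq_left.mp h))
        have h2 := Submodule.finrank_lt_finrank_of_lt hlt
        have h1 := ih (Fin.tail b) (K ⊓ H g)
        set d' := Module.finrank ℝ ↥(K ⊓ H g) with hd'
        have hd'e : d' ≤ e := by omega
        obtain ⟨k, hk⟩ := Nat.exists_eq_add_of_le hd'e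
        calc (badB ev m (Fin.tail b) (K ⊓ H g)).card * C ^ (e + 1)
            = ((badB ev m (Fin.tail b) (K ⊓ H g)).card * C ^ d') * (C ^ k * C) := by
              rw [hk]; ring
          _ ≤ (S m d' * C ^ m * N ^ d') * (C ^ k * C) := Nat.mul_le_mul_right _ h1
          _ ≤ (S m e * C ^ m * N ^ d') * (N ^ k * C) := by
              refine Nat.mul_le_mul ?_ ?_
              · exact Nat.mul_le_mul_right _ (Nat.mul_le_mul_right _ (S_mono m hd'e))
              · exact Nat.mul_le_mul_right _ (Nat.pow_le_pow_left hCN _)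
          _ = Y := by
              rw [hY, hk, pow_add]; ring
    rw [he, S_succ]
    calc (badB ev (m + 1) b K).card * C ^ (e + 1)
        ≤ (∑ g : ι → ℤˣ, (badB ev m (Fin.tail b) (K ⊓ H g)).card) * C ^ (e + 1) :=
          Nat.mul_le_mul_right _ hinj
      _ = ∑ g : ι → ℤˣ, (badB ev m (Fin.tail b) (K ⊓ H g)).card * C ^ (e + 1) := by
          rw [Finset.sum_mul]
      _ ≤ ∑ g : ι → ℤˣ, (if K ≤ H g then X else Y) := Finset.sum_le_sum (fun g _ => hr g)
      _ = a * X + c * Y := by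
          rw [Finset.sum_ite, Finset.sum_const, Finset.sum_const, smul_eq_mul, smul_eq_mul]
      _ ≤ C * X + N * Y := Nat.add_le_add (Nat.mul_le_mul_right _ haC) (Nat.mul_le_mul_right _ hcN)
      _ = (S m (e + 1) + S m e) * C ^ (m + 1) * N ^ (e + 1) := by
          rw [hX, hY, pow_succ, pow_succ]; ring

end Rows

variable {n : ℕ}

open Classical in
/-- The sign choices with a kernel vector in `K0` nonvanishing on `T`. -/
noncomputable def Ev (K0 : Submodule ℝ (Fin n → ℝ)) (T : Finset (Fin n)) :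
    Finset (Sym2 (Fin n) → ℤˣ) :=
  Finset.univ.filter (fun f => ∃ x ∈ K0, (∀ a ∈ T, x a ≠ 0) ∧
    ((symSign f).map (Int.cast : ℤ → ℝ)).mulVec x = 0)

lemma Ev_card (K0 : Submodule ℝ (Fin n → ℝ)) {T : Finset (Fin n)} (hTne : T.Nonempty) :
    (Ev K0 T).card * (T.card.choose (T.card / 2)) ^ Module.finrank ℝ K0
        * (2 ^ T.card) ^ (n - T.card)
      ≤ 2 ^ Fintype.card (Sym2 (Fin n)) * (S (n - T.card) (Module.finrank ℝ K0)
          * (T.card.choose (T.card / 2)) ^ (n - T.card)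
          * (2 ^ T.card) ^ Module.finrank ℝ K0) := by
  classical
  have hm : Fintype.card {r // r ∉ T} + T.card = n := by
    have := card_off_add T
    simpa using this
  set m := Fintype.card {r // r ∉ T} with hmdef
  have hnm : n - T.card = m := by omega
  rw [hnm]
  set t := T.card with ht
  set C := t.choose (t / 2) with hC
  set D := Module.finrank ℝ K0 with hD'
  let e : {r // r ∉ T} ≃ Fin m := Fintype.equivFin _
  let emb : Fin m × (↥T) → Sym2 (Fin n) := fun p => s((e.symm p.1).1, p.2.1)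
  have hemb : Function.Injective emb := by
    rintro ⟨i, a⟩ ⟨i', a'⟩ h
    rcases Sym2.eq_iff.mp h with ⟨h1, h2⟩ | ⟨h1, _⟩
    · have h3 : e.symm i = e.symm i' := Subtype.ext h1
      have h4 : i = i' := e.symm.injective h3
      have h5 : a = a' := Subtype.ext h2
      rw [h4, h5]
    · exact absurd (h1 ▸ a'.2) (e.symm i).2
  set D0 : Finset (Sym2 (Fin n)) := Finset.univ.image emb with hD0
  have hD0card : D0.card = m * t := by
    rw [hD0, Finset.card_image_of_injective _ hemb, Finset.card_univ, Fintype.card_prod,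
      Fintype.card_fin, Fintype.card_coe]
  have hoffD : ∀ r a : Fin n, r ∉ T → a ∉ T → s(r, a) ∉ D0 := by
    intro r a hr ha hmem
    obtain ⟨p, _, hp⟩ := Finset.mem_image.mp hmem
    rcases Sym2.eq_iff.mp hp with ⟨_, h2⟩ | ⟨_, h1⟩
    · exact ha (h2 ▸ p.2.2)
    · exact hr (h1 ▸ p.2.2)
  let Ψ : (Sym2 (Fin n) → ℤˣ) → ({y // y ∉ D0} → ℤˣ) := fun f y => f y.1
  let rows : (Sym2 (Fin n) → ℤˣ) → (Fin m → (↥T) → ℤˣ) := fun f i a => f s((e.symm i).1, a.1)
  have : Nonempty (↥T) := hTne.to_subtype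
  let ev : (↥T) → (Fin n → ℝ) →ₗ[ℝ] ℝ := fun a => LinearMap.proj a.1
  set Z := S m D * C ^ m * (2 ^ t) ^ D with hZ
  have hfib : ∀ g0 : {y // y ∉ D0} → ℤˣ,
      ((Ev K0 T).filter (fun f => Ψ f = g0)).card * C ^ D ≤ Z := by
    intro g0
    by_cases hne : ((Ev K0 T).filter (fun f => Ψ f = g0)).Nonempty
    swap
    · rw [Finset.not_nonempty_iff_eq_empty.mp hne]
      simp
    obtain ⟨f0, hf0⟩ := hne
    have hf0Ψ : Ψ f0 = g0 := (Finset.mem_filter.mp hf0).2
    let b : Fin m → (Fin n → ℝ) →ₗ[ℝ] ℝ := fun i =>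
      ∑ a ∈ Tᶜ, (((f0 s((e.symm i).1, a) : ℤˣ) : ℤ) : ℝ) • LinearMap.proj a
    have hbapp : ∀ i x, b i x = ∑ a ∈ Tᶜ, (((f0 s((e.symm i).1, a) : ℤˣ) : ℤ) : ℝ) * x a := by
      intro i x
      simp [b, LinearMap.sum_apply]
    have h1 : ((Ev K0 T).filter (fun f => Ψ f = g0)).card ≤ (badB ev m b K0).card := by
      refine Finset.card_le_card_of_injOn rows ?_ ?_
      · intro f hf
        have hfE := (Finset.mem_filter.mp (Finset.mem_coe.mp hf)).1
        have hfΨ : Ψ f = g0 := (Finset.mem_filter.mp (Finset.mem_coe.mp hf)).2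
        obtain ⟨x, hxK, hxT, hxker⟩ : ∃ x ∈ K0, (∀ a ∈ T, x a ≠ 0) ∧
            ((symSign f).map (Int.cast : ℤ → ℝ)).mulVec x = 0 := by
          simpa [Ev] using hfE
        rw [Finset.mem_coe]
        simp only [badB, Finset.mem_filter, Finset.mem_univ, true_and]
        refine ⟨x, hxK, fun a => hxT a.1 a.2, fun i => ?_⟩
        rw [mem_hypB]
        have e1 := congrFun hxker (e.symm i).1
        simp only [Matrix.mulVec, dotProduct, Matrix.map_apply, symSign, Pi.zero_apply] at e1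
        rw [← Finset.sum_add_sum_compl T] at e1
        have e3 : ∑ a ∈ Tᶜ, (((f s((e.symm i).1, a) : ℤˣ) : ℤ) : ℝ) * x a = b i x := by
          rw [hbapp]
          refine Finset.sum_congr rfl (fun a ha => ?_)
          have hnot := hoffD (e.symm i).1 a (e.symm i).2 (Finset.mem_compl.mp ha)
          have : Ψ f ⟨s((e.symm i).1, a), hnot⟩ = Ψ f0 ⟨s((e.symm i).1, a), hnot⟩ := by
            rw [hfΨ, hf0Ψ]
          have h' : f s((e.symm i).1, a) = f0 s((e.symm i).1, a) := this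
          rw [h']
        rw [e3] at e1
        have e4 : ∑ a : ↥T, (((rows f i a : ℤˣ) : ℤ) : ℝ) * ev a x
            = ∑ a ∈ T, (((f s((e.symm i).1, a) : ℤˣ) : ℤ) : ℝ) * x a :=
          Finset.sum_coe_sort T (fun a => (((f s((e.symm i).1, a) : ℤˣ) : ℤ) : ℝ) * x a)
        rw [e4]
        exact e1
      · intro f hf f' hf' h
        have hfΨ : Ψ f = g0 := (Finset.mem_filter.mp (Finset.mem_coe.mp hf)).2
        have hfΨ' : Ψ f' = g0 := (Finset.mem_filter.mp (Finset.mem_coe.mp hf')).2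
        funext y
        by_cases hy : y ∈ D0
        · obtain ⟨p, _, rfl⟩ := Finset.mem_image.mp hy
          exact congrFun (congrFun h p.1) p.2
        · have : Ψ f ⟨y, hy⟩ = Ψ f' ⟨y, hy⟩ := by rw [hfΨ, hfΨ']
          exact this
    have h2 := badB_card ev m b K0
    have hcardT : Fintype.card (↥T) = t := Fintype.card_coe T
    have hNT : Fintype.card ((↥T) → ℤˣ) = 2 ^ t := by
      rw [Fintype.card_fun, Fintype.card_units_int, hcardT]
    rw [hNT, hcardT] at h2
    exact (Nat.mul_le_mul_right _ h1).trans h2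
  set off := Fintype.card {y // y ∉ D0} with hoff
  have hoffadd : off + D0.card = Fintype.card (Sym2 (Fin n)) := card_off_add D0
  have hcard1 : (Ev K0 T).card * C ^ D ≤ 2 ^ off * Z := by
    rw [Finset.card_eq_sum_card_image Ψ (Ev K0 T), Finset.sum_mul]
    calc ∑ g0 ∈ (Ev K0 T).image Ψ, ((Ev K0 T).filter (fun f => Ψ f = g0)).card * C ^ D
        ≤ ∑ _g0 ∈ (Ev K0 T).image Ψ, Z := Finset.sum_le_sum (fun g0 _ => hfib g0)
      _ = ((Ev K0 T).image Ψ).card * Z := by rw [Finset.sum_const, smul_eq_mul]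
      _ ≤ 2 ^ off * Z := by
          refine Nat.mul_le_mul_right _ ?_
          calc ((Ev K0 T).image Ψ).card ≤ Fintype.card ({y // y ∉ D0} → ℤˣ) :=
                Finset.card_le_univ _
            _ = 2 ^ off := by rw [Fintype.card_fun, Fintype.card_units_int]
  calc (Ev K0 T).card * C ^ D * (2 ^ t) ^ m ≤ (2 ^ off * Z) * (2 ^ t) ^ m :=
        Nat.mul_le_mul_right _ hcard1
    _ = 2 ^ (off + m * t) * Z := by
        rw [pow_add, ← pow_mul, mul_comm t m]; ring
    _ = 2 ^ Fintype.card (Sym2 (Fin n)) * Z := by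
        rw [← hD0card, hoffadd]

lemma loRatio_le_one (t : ℕ) : loRatio t ≤ 1 := by
  unfold loRatio
  rw [div_le_one (by positivity)]
  exact_mod_cast Nat.choose_le_two_pow t (t / 2)

/-- The probability form of `Ev_card`. -/
lemma Ev_prob (K0 : Submodule ℝ (Fin n → ℝ)) {T : Finset (Fin n)} (hTne : T.Nonempty)
    (hD : Module.finrank ℝ K0 ≤ n - T.card) :
    ((Ev K0 T).card : ℝ) ≤ (S (n - T.card) (Module.finrank ℝ K0) : ℝ)
        * loRatio T.card ^ (n - T.card - Module.finrank ℝ K0)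
        * ((2 ^ Fintype.card (Sym2 (Fin n)) : ℕ) : ℝ) := by
  have h := Ev_card K0 hTne
  set m := n - T.card with hm
  set D := Module.finrank ℝ K0 with hDdef
  set t := T.card with ht
  set C := t.choose (t / 2) with hC
  have hCpos : 0 < C := Nat.choose_pos (Nat.div_le_self _ _)
  obtain ⟨k, hk⟩ := Nat.exists_eq_add_of_le hD
  have hkk : m - D = k := by omega
  rw [hkk]
  rw [hk] at h
  set Q := 2 ^ Fintype.card (Sym2 (Fin n)) with hQ
  have hpos : 0 < C ^ D * (2 ^ t) ^ D := by positivity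
  have h1 : (Ev K0 T).card * (2 ^ t) ^ k ≤ Q * (S (D + k) D * C ^ k) := by
    refine Nat.le_of_mul_le_mul_left ?_ hpos
    calc C ^ D * (2 ^ t) ^ D * ((Ev K0 T).card * (2 ^ t) ^ k)
        = (Ev K0 T).card * C ^ D * (2 ^ t) ^ (D + k) := by rw [pow_add]; ring
      _ ≤ Q * (S (D + k) D * C ^ (D + k) * (2 ^ t) ^ D) := h
      _ = C ^ D * (2 ^ t) ^ D * (Q * (S (D + k) D * C ^ k)) := by rw [pow_add]; ring
  have h2 : ((Ev K0 T).card : ℝ) * ((2 : ℝ) ^ t) ^ k
      ≤ (Q : ℝ) * ((S (D + k) D : ℝ) * (C : ℝ) ^ k) := by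
    exact_mod_cast h1
  have h3 : loRatio t ^ k = (C : ℝ) ^ k / ((2 : ℝ) ^ t) ^ k := by
    rw [loRatio, div_pow]
  have hpos2 : (0 : ℝ) < ((2 : ℝ) ^ t) ^ k := by positivity
  rw [h3, hk, ← sub_nonneg]
  have h4 : (S (D + k) D : ℝ) * ((C : ℝ) ^ k / ((2 : ℝ) ^ t) ^ k) * (Q : ℝ)
      - ((Ev K0 T).card : ℝ)
      = ((Q : ℝ) * ((S (D + k) D : ℝ) * (C : ℝ) ^ k)
          - ((Ev K0 T).card : ℝ) * ((2 : ℝ) ^ t) ^ k) / ((2 : ℝ) ^ t) ^ k := by
    field_simp
  rw [h4]
  exact div_nonneg (by linarith) hpos2.le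

open Classical in
/-- The sign choices whose kernel holds a nonzero vector of one of the subspaces of `𝔎`. -/
noncomputable def subSet (n : ℕ) (𝔎 : Finset (Submodule ℝ (Fin n → ℝ))) :
    Finset (Sym2 (Fin n) → ℤˣ) :=
  Finset.univ.filter (fun f => ∃ K ∈ 𝔎, ∃ x ∈ K, x ≠ 0 ∧
    ((symSign f).map (Int.cast : ℤ → ℝ)).mulVec x = 0)

/-- The probability that the kernel holds a nonzero vector of one of the subspaces of `𝔎`. -/
noncomputable def subProb (n : ℕ) (𝔎 : Finset (Submodule ℝ (Fin n → ℝ))) : ℝ :=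
  ((subSet n 𝔎).card : ℝ) / (Fintype.card (Sym2 (Fin n) → ℤˣ) : ℝ)

lemma S_le_two_pow {m d : ℕ} (h : d ≤ m) : S m d ≤ 2 ^ m := by
  rw [← Nat.sum_range_choose m]
  exact Finset.sum_le_sum_of_subset (Finset.range_mono (by omega))

/-- The explicit master bound. -/
theorem subProb_le (n t D : ℕ) (ht : 1 ≤ t) (hD : D ≤ n - t)
    (𝔎 : Finset (Submodule ℝ (Fin n → ℝ))) (h𝔎 : ∀ K ∈ 𝔎, Module.finrank ℝ K ≤ D) :
    subProb n 𝔎 ≤ sparseProb n (t - 1)
      + (𝔎.card : ℝ) * (n.choose t : ℝ) * 2 ^ n * loRatio t ^ (n - t - D) := by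
  classical
  set Q : ℕ := 2 ^ Fintype.card (Sym2 (Fin n)) with hQ
  have hQpos : (0 : ℝ) < (Q : ℝ) := by rw [hQ]; positivity
  have hcard : (Fintype.card (Sym2 (Fin n) → ℤˣ) : ℝ) = (Q : ℝ) := by
    rw [Fintype.card_fun, Fintype.card_units_int]
  set 𝒯 : Finset (Finset (Fin n)) := Finset.powersetCard t Finset.univ with h𝒯
  have hsub : subSet n 𝔎 ⊆ sparseSet n (t - 1) ∪ 𝔎.biUnion (fun K => 𝒯.biUnion (Ev K)) := by
    intro f hf
    obtain ⟨K, hK, x, hxK, hx0, hxker⟩ : ∃ K ∈ 𝔎, ∃ x ∈ K, x ≠ 0 ∧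
        ((symSign f).map (Int.cast : ℤ → ℝ)).mulVec x = 0 := by
      simpa [subSet] using hf
    by_cases hs : t ≤ (Finset.univ.filter (fun i => x i ≠ 0)).card
    · refine Finset.mem_union_right _ (Finset.mem_biUnion.mpr ⟨K, hK, ?_⟩)
      obtain ⟨T, hTsub, hTcard⟩ := Finset.exists_subset_card_eq hs
      refine Finset.mem_biUnion.mpr ⟨T, Finset.mem_powersetCard.mpr
        ⟨Finset.subset_univ _, hTcard⟩, ?_⟩
      simp only [Ev, Finset.mem_filter, Finset.mem_univ, true_and]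
      exact ⟨x, hxK, fun a ha => (Finset.mem_filter.mp (hTsub ha)).2, hxker⟩
    · refine Finset.mem_union_left _ ?_
      simp only [sparseSet, Finset.mem_filter, Finset.mem_univ, true_and]
      exact ⟨x, hx0, by omega, hxker⟩
  have hρ0 := loRatio_nonneg t
  have hρ1 := loRatio_le_one t
  have hEv : ∀ K ∈ 𝔎, ∀ T ∈ 𝒯, ((Ev K T).card : ℝ) ≤ 2 ^ n * loRatio t ^ (n - t - D) * (Q : ℝ) := by
    intro K hK T hT
    have hTcard : T.card = t := (Finset.mem_powersetCard.mp hT).2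
    have hTne : T.Nonempty := by
      rw [← Finset.card_pos]; omega
    have hKD := h𝔎 K hK
    have h := Ev_prob K hTne (by rw [hTcard]; omega)
    rw [hTcard] at h
    refine h.trans ?_
    refine mul_le_mul_of_nonneg_right ?_ (by positivity)
    have hS : (S (n - t) (Module.finrank ℝ K) : ℝ) ≤ 2 ^ n := by
      have h1 : S (n - t) (Module.finrank ℝ K) ≤ 2 ^ (n - t) := S_le_two_pow (by omega)
      have h2 : (2 : ℕ) ^ (n - t) ≤ 2 ^ n := Nat.pow_le_pow_right (by norm_num) (Nat.sub_le _ _)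
      exact_mod_cast h1.trans h2
    have hp : loRatio t ^ (n - t - Module.finrank ℝ K) ≤ loRatio t ^ (n - t - D) :=
      pow_le_pow_of_le_one hρ0 hρ1 (by omega)
    exact mul_le_mul hS hp (by positivity) (by positivity)
  have h𝒯card : (𝒯.card : ℝ) = (n.choose t : ℝ) := by
    rw [h𝒯, Finset.card_powersetCard, Finset.card_univ, Fintype.card_fin]
  set W : ℝ := 2 ^ n * loRatio t ^ (n - t - D) * (Q : ℝ) with hW
  have hW0 : 0 ≤ W := by positivity
  have hU : ((𝔎.biUnion (fun K => 𝒯.biUnion (Ev K))).card : ℝ)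
      ≤ (𝔎.card : ℝ) * ((n.choose t : ℝ) * W) := by
    have hin : ∀ K ∈ 𝔎, ((𝒯.biUnion (Ev K)).card : ℝ) ≤ (n.choose t : ℝ) * W := by
      intro K hK
      calc ((𝒯.biUnion (Ev K)).card : ℝ) ≤ ((∑ T ∈ 𝒯, (Ev K T).card : ℕ) : ℝ) := by
            exact_mod_cast Finset.card_biUnion_le
        _ = ∑ T ∈ 𝒯, ((Ev K T).card : ℝ) := by push_cast; rfl
        _ ≤ ∑ _T ∈ 𝒯, W := Finset.sum_le_sum (hEv K hK)
        _ = (n.choose t : ℝ) * W := by rw [Finset.sum_const, nsmul_eq_mul, h𝒯card]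
    calc ((𝔎.biUnion (fun K => 𝒯.biUnion (Ev K))).card : ℝ)
        ≤ ((∑ K ∈ 𝔎, (𝒯.biUnion (Ev K)).card : ℕ) : ℝ) := by
          exact_mod_cast Finset.card_biUnion_le
      _ = ∑ K ∈ 𝔎, ((𝒯.biUnion (Ev K)).card : ℝ) := by push_cast; rfl
      _ ≤ ∑ _K ∈ 𝔎, (n.choose t : ℝ) * W := Finset.sum_le_sum hin
      _ = (𝔎.card : ℝ) * ((n.choose t : ℝ) * W) := by rw [Finset.sum_const, nsmul_eq_mul]
  have hall : ((subSet n 𝔎).card : ℝ) ≤ ((sparseSet n (t - 1)).card : ℝ)
      + (𝔎.card : ℝ) * ((n.choose t : ℝ) * W) := by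
    have h1 : (subSet n 𝔎).card ≤ (sparseSet n (t - 1)).card
        + (𝔎.biUnion (fun K => 𝒯.biUnion (Ev K))).card :=
      (Finset.card_le_card hsub).trans (Finset.card_union_le _ _)
    have h2 : ((subSet n 𝔎).card : ℝ) ≤ ((sparseSet n (t - 1)).card : ℝ)
        + ((𝔎.biUnion (fun K => 𝒯.biUnion (Ev K))).card : ℝ) := by
      exact_mod_cast h1
    linarith
  unfold subProb sparseProb
  rw [hcard, div_add' _ _ _ hQpos.ne', div_le_div_iff_of_pos_right hQpos]
  calc ((subSet n 𝔎).card : ℝ)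
      ≤ ((sparseSet n (t - 1)).card : ℝ) + (𝔎.card : ℝ) * ((n.choose t : ℝ) * W) := hall
    _ = _ := by rw [hW]; ring

/-- The master rate: if `β + δ/2 < 1/2` and `ε > 0` then for all large `n` and every family `𝔎` of at
most `n^(β n)` subspaces of `ℝ^n` of dimension at most `δ n`, the kernel meets the union of `𝔎`
nontrivially with probability at most `(1/2 + ε)^n`. -/
theorem sub_rate (β δ : ℝ) (hβ : 0 ≤ β) (hδ : 0 ≤ δ) (hβδ : β + δ / 2 < 1 / 2) (ε : ℝ) (hε : 0 < ε) :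
    ∃ N : ℕ, ∀ n : ℕ, N ≤ n → ∀ 𝔎 : Finset (Submodule ℝ (Fin n → ℝ)),
      (𝔎.card : ℝ) ≤ (n : ℝ) ^ (β * n) → (∀ K ∈ 𝔎, (Module.finrank ℝ K : ℝ) ≤ δ * n) →
      subProb n 𝔎 ≤ (1 / 2 + ε) ^ n := by
  obtain ⟨L0, hL0pos, hL0⟩ := sparse_rate (ε / 2) (by positivity)
  have hgap : 0 < 1 / 2 - β - δ / 2 := by linarith
  obtain ⟨L1, hL1⟩ := exists_nat_gt (1 / (1 / 2 - β - δ / 2))
  have hL1pos : (0 : ℝ) < L1 := lt_trans (by positivity) hL1
  set L : ℕ := L0 + L1 + 2 with hL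
  have hLpos : 0 < L := by omega
  have hLR : (0 : ℝ) < (L : ℝ) := by exact_mod_cast hLpos
  have hLL1 : (L1 : ℝ) ≤ L := by
    rw [hL]; push_cast
    have : (0 : ℝ) ≤ L0 := Nat.cast_nonneg _
    linarith
  set γ : ℝ := 1 / 2 - δ / 2 - 1 / (L : ℝ) with hγ
  have hγβ : β < γ := by
    have h1 : 1 / (L : ℝ) ≤ 1 / (L1 : ℝ) := one_div_le_one_div_of_le hL1pos hLL1
    have h2 : 1 / (L1 : ℝ) < 1 / 2 - β - δ / 2 := by
      rw [div_lt_iff₀ hL1pos]
      rw [div_lt_iff₀ hgap] at hL1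
      linarith
    rw [hγ]
    linarith
  set θ : ℝ := ε / 2 with hθ
  have hθpos : 0 < θ := by positivity
  have hlim : Tendsto (fun n : ℕ => 4 * ((L : ℝ) ^ γ * (n : ℝ) ^ (-(γ - β)))) atTop (𝓝 0) := by
    have h1 : Tendsto (fun n : ℕ => (n : ℝ) ^ (-(γ - β))) atTop (𝓝 0) :=
      (tendsto_rpow_neg_atTop (by linarith)).comp tendsto_natCast_atTop_atTop
    simpa using (h1.const_mul ((L : ℝ) ^ γ)).const_mul 4
  have hev : ∀ᶠ n : ℕ in atTop, 4 * ((L : ℝ) ^ γ * (n : ℝ) ^ (-(γ - β))) < θ :=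
    (tendsto_order.mp hlim).2 _ hθpos
  obtain ⟨N0, hN0⟩ := eventually_atTop.mp hev
  refine ⟨N0 + L + 1, fun n hn 𝔎 h𝔎card h𝔎dim => ?_⟩
  have hnN0 : N0 ≤ n := by omega
  have hnL : L ≤ n := by omega
  have hnpos : 0 < n := by omega
  have hnR : (0 : ℝ) < (n : ℝ) := by exact_mod_cast hnpos
  set q : ℕ := n / L with hq
  set t : ℕ := q + 1 with ht
  have ht1 : 1 ≤ t := Nat.le_add_left 1 q
  have hsub1 : t - 1 = q := Nat.add_sub_cancel q 1
  have hLt : n < L * t := Nat.lt_mul_div_succ n hLpos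
  have hLtR : (n : ℝ) < L * (t : ℝ) := by exact_mod_cast hLt
  have hntle : L * q ≤ n := Nat.mul_div_le _ _
  have htle : L * t ≤ 2 * n := by
    rw [ht, mul_add, mul_one]
    omega
  have htleR : (L : ℝ) * (t : ℝ) ≤ 2 * (n : ℝ) := by exact_mod_cast htle
  have htn : t ≤ n := by
    have h3 : 2 * t ≤ L * t := Nat.mul_le_mul_right _ (by omega)
    omega
  have htR : (t : ℝ) ≤ 2 * ((1 / (L : ℝ)) * (n : ℝ)) := by
    have h5 : (t : ℝ) ≤ 2 * (n : ℝ) / L := by
      rw [le_div_iff₀ hLR]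
      linarith
    calc (t : ℝ) ≤ 2 * (n : ℝ) / L := h5
      _ = _ := by ring
  set D : ℕ := ⌊δ * n⌋₊ with hDdef
  have hDle : (D : ℝ) ≤ δ * n := Nat.floor_le (by positivity)
  have hγpos : 0 < γ := lt_of_le_of_lt hβ hγβ
  have hmR : ((n - t : ℕ) : ℝ) = (n : ℝ) - t := by rw [Nat.cast_sub htn]
  have hkey : 2 * γ * (n : ℝ) ≤ (n : ℝ) - t - D := by
    have h6 : 2 * γ * (n : ℝ) = (n : ℝ) - δ * n - 2 * ((1 / (L : ℝ)) * (n : ℝ)) := by
      rw [hγ]; ring
    rw [h6]
    linarith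
  have hDm : D ≤ n - t := by
    have h7 : (D : ℝ) ≤ ((n - t : ℕ) : ℝ) := by
      rw [hmR]
      have : 0 ≤ 2 * γ * (n : ℝ) := by positivity
      linarith
    exact_mod_cast h7
  have h𝔎D : ∀ K ∈ 𝔎, Module.finrank ℝ K ≤ D := fun K hK => Nat.le_floor (h𝔎dim K hK)
  have hkR : ((n - t - D : ℕ) : ℝ) = (n : ℝ) - t - D := by
    rw [Nat.cast_sub hDm, hmR]
  set u : ℝ := (L : ℝ) / n with hu
  have hu0 : 0 < u := by positivity
  have hu1 : u ≤ 1 := by
    rw [hu, div_le_one hnR]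
    exact_mod_cast hnL
  have hsp : sparseProb n (t - 1) ≤ (1 / 2 + ε / 2) ^ n := by
    rw [hsub1]
    refine (sparseProb_mono n ?_).trans (hL0 n)
    exact Nat.div_le_div_left (by omega) hL0pos
  have hρ : loRatio t ≤ u ^ (1 / 2 : ℝ) := by
    rw [← Real.sqrt_eq_rpow]
    refine Real.le_sqrt_of_sq_le ?_
    have h1 := loRatio_sq t
    have htpos : (0 : ℝ) < (t : ℝ) := by
      have : 0 < t := ht1
      exact_mod_cast this
    have h2 : loRatio t ^ 2 ≤ 1 / (t : ℝ) := by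
      rw [le_div_iff₀ htpos]
      exact h1
    refine h2.trans ?_
    rw [hu, div_le_div_iff₀ htpos hnR]
    nlinarith
  have hρ0 := loRatio_nonneg t
  have hexp : γ * (n : ℝ) ≤ (((n - t - D : ℕ) : ℝ)) * (1 / 2) := by
    rw [hkR]
    linarith
  have hpow1 : loRatio t ^ (n - t - D) ≤ (u ^ γ) ^ n := by
    calc loRatio t ^ (n - t - D) ≤ (u ^ (1 / 2 : ℝ)) ^ (n - t - D) := pow_le_pow_left₀ hρ0 hρ _
      _ = u ^ (((n - t - D : ℕ) : ℝ) * (1 / 2)) := by
          rw [← Real.rpow_natCast, ← Real.rpow_mul hu0.le]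
          ring_nf
      _ ≤ u ^ (γ * (n : ℝ)) := Real.rpow_le_rpow_of_exponent_ge hu0 hu1 hexp
      _ = (u ^ γ) ^ n := by
          rw [Real.rpow_mul hu0.le, Real.rpow_natCast]
  have hbase : 4 * ((n : ℝ) ^ β * u ^ γ) ≤ θ := by
    have h1 := (hN0 n hnN0).le
    have h2 : (n : ℝ) ^ β * u ^ γ = (L : ℝ) ^ γ * (n : ℝ) ^ (-(γ - β)) := by
      rw [hu, Real.div_rpow hLR.le hnR.le, neg_sub, Real.rpow_sub hnR β γ]
      ring
    rw [h2]
    exact h1
  have h𝔎pow : (𝔎.card : ℝ) ≤ ((n : ℝ) ^ β) ^ n := by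
    have : ((n : ℝ) ^ β) ^ n = (n : ℝ) ^ (β * n) := by
      rw [Real.rpow_mul hnR.le, Real.rpow_natCast]
    rw [this]
    exact h𝔎card
  have hchoose : (n.choose t : ℝ) ≤ 2 ^ n := by
    exact_mod_cast Nat.choose_le_two_pow n t
  have hrest : (𝔎.card : ℝ) * (n.choose t : ℝ) * 2 ^ n * loRatio t ^ (n - t - D) ≤ θ ^ n := by
    have h0𝔎 : (0 : ℝ) ≤ (𝔎.card : ℝ) := Nat.cast_nonneg _
    have h0ch : (0 : ℝ) ≤ (n.choose t : ℝ) := Nat.cast_nonneg _
    have hnβ : (0 : ℝ) ≤ (n : ℝ) ^ β := by positivity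
    calc (𝔎.card : ℝ) * (n.choose t : ℝ) * 2 ^ n * loRatio t ^ (n - t - D)
        ≤ ((n : ℝ) ^ β) ^ n * 2 ^ n * 2 ^ n * (u ^ γ) ^ n := by
          refine mul_le_mul ?_ hpow1 (by positivity) (by positivity)
          refine mul_le_mul_of_nonneg_right ?_ (by positivity)
          exact mul_le_mul h𝔎pow hchoose h0ch (by positivity)
      _ = (4 * ((n : ℝ) ^ β * u ^ γ)) ^ n := by
          rw [mul_pow, mul_pow]
          have : (4 : ℝ) ^ n = 2 ^ n * 2 ^ n := by
            rw [← mul_pow]; norm_num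
          rw [this]; ring
      _ ≤ θ ^ n := pow_le_pow_left₀ (by positivity) hbase n
  calc subProb n 𝔎 ≤ sparseProb n (t - 1)
        + (𝔎.card : ℝ) * (n.choose t : ℝ) * 2 ^ n * loRatio t ^ (n - t - D) :=
        subProb_le n t D ht1 hDm 𝔎 h𝔎D
    _ ≤ (1 / 2 + ε / 2) ^ n + θ ^ n := add_le_add hsp hrest
    _ ≤ (1 / 2 + ε / 2 + θ) ^ n := add_pow_le_pow_add (by positivity) hθpos.le hnpos
    _ = (1 / 2 + ε) ^ n := by rw [hθ]; ring_nf

/-- Members of `subSet` are singular. -/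
theorem subProb_le_singProb (n : ℕ) (𝔎 : Finset (Submodule ℝ (Fin n → ℝ))) :
    subProb n 𝔎 ≤ singProb n := by
  classical
  unfold subProb singProb
  refine div_le_div_of_nonneg_right ?_ (Nat.cast_nonneg _)
  have : (subSet n 𝔎).card
      ≤ ((Finset.univ : Finset (Sym2 (Fin n) → ℤˣ)).filter (fun f => (symSign f).det = 0)).card := by
    refine Finset.card_le_card (fun f hf => ?_)
    obtain ⟨K, _, x, _, hx0, hxker⟩ : ∃ K ∈ 𝔎, ∃ x ∈ K, x ≠ 0 ∧
        ((symSign f).map (Int.cast : ℤ → ℝ)).mulVec x = 0 := by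
      simpa [subSet] using hf
    simp only [Finset.mem_filter, Finset.mem_univ, true_and]
    have hdet : ((symSign f).map (Int.cast : ℤ → ℝ)).det = 0 :=
      Matrix.exists_mulVec_eq_zero_iff.mp ⟨x, hx0, hxker⟩
    have h2 := (Int.castRingHom ℝ).map_det (symSign f)
    have h3 : (Int.castRingHom ℝ).mapMatrix (symSign f)
        = (symSign f).map (Int.cast : ℤ → ℝ) := rfl
    rw [h3, hdet] at h2
    simpa using h2
  exact_mod_cast this

open Classical in
/-- The sign choices whose kernel holds a nonzero vector with at most `M` distinct coordinates. -/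
noncomputable def fewSet (n M : ℕ) : Finset (Sym2 (Fin n) → ℤˣ) :=
  Finset.univ.filter (fun f => ∃ x : Fin n → ℝ, x ≠ 0 ∧ (Finset.univ.image x).card ≤ M ∧
    ((symSign f).map (Int.cast : ℤ → ℝ)).mulVec x = 0)

/-- The probability that the kernel holds a nonzero vector with at most `M` distinct coordinates. -/
noncomputable def fewProb (n M : ℕ) : ℝ :=
  ((fewSet n M).card : ℝ) / (Fintype.card (Sym2 (Fin n) → ℤˣ) : ℝ)

open Classical in
/-- The subspaces of vectors factoring through a pattern `[n] → [M]`. -/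
noncomputable def patternFamily (n M : ℕ) : Finset (Submodule ℝ (Fin n → ℝ)) :=
  (Finset.univ : Finset (Fin n → Fin M)).image
    (fun π => LinearMap.range (LinearMap.funLeft ℝ ℝ π))

lemma patternFamily_card (n M : ℕ) : (patternFamily n M).card ≤ M ^ n := by
  classical
  unfold patternFamily
  refine Finset.card_image_le.trans ?_
  simp

lemma patternFamily_dim {n M : ℕ} {K : Submodule ℝ (Fin n → ℝ)} (hK : K ∈ patternFamily n M) :
    Module.finrank ℝ K ≤ M := by
  classical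
  obtain ⟨π, _, rfl⟩ := Finset.mem_image.mp hK
  have h := LinearMap.finrank_range_le (LinearMap.funLeft ℝ ℝ π)
  simpa using h

lemma fewSet_subset (n M : ℕ) : fewSet n M ⊆ subSet n (patternFamily n M) := by
  classical
  intro f hf
  obtain ⟨x, hx0, hxc, hxker⟩ : ∃ x : Fin n → ℝ, x ≠ 0 ∧ (Finset.univ.image x).card ≤ M ∧
      ((symSign f).map (Int.cast : ℤ → ℝ)).mulVec x = 0 := by
    simpa [fewSet] using hf
  simp only [subSet, Finset.mem_filter, Finset.mem_univ, true_and]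
  -- an injection of the values into `Fin M`
  have hcard : Fintype.card (↥(Finset.univ.image x)) ≤ Fintype.card (Fin M) := by
    simpa using hxc
  obtain ⟨emb⟩ := Function.Embedding.nonempty_of_card_le hcard
  let π : Fin n → Fin M := fun a => emb ⟨x a, Finset.mem_image_of_mem x (Finset.mem_univ a)⟩
  let y : Fin M → ℝ := fun c => if h : ∃ a, π a = c then x h.choose else 0
  have hxy : (fun a => y (π a)) = x := by
    funext a
    have h : ∃ b, π b = π a := ⟨a, rfl⟩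
    have hy : y (π a) = x h.choose := dif_pos h
    have h2 : π h.choose = π a := h.choose_spec
    have h3 := emb.injective h2
    have h4 : x h.choose = x a := congrArg Subtype.val h3
    show y (π a) = x a
    rw [hy, h4]
  refine ⟨LinearMap.range (LinearMap.funLeft ℝ ℝ π),
    Finset.mem_image.mpr ⟨π, Finset.mem_univ _, rfl⟩, x, ?_, hx0, hxker⟩
  exact ⟨y, hxy⟩

/-- Few distinct values, arbitrary real: the rate is at most `1/2`. -/
theorem few_rate (β : ℝ) (hβ0 : 0 ≤ β) (hβ : β < 1 / 2) (ε : ℝ) (hε : 0 < ε) :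
    ∃ N : ℕ, ∀ n M : ℕ, N ≤ n → (M : ℝ) ≤ (n : ℝ) ^ β → fewProb n M ≤ (1 / 2 + ε) ^ n := by
  set δ : ℝ := 1 / 2 - β with hδ
  have hδ0 : 0 < δ := by rw [hδ]; linarith
  obtain ⟨N1, hN1⟩ := sub_rate β δ hβ0 hδ0.le (by rw [hδ]; linarith) ε hε
  have hlim : Tendsto (fun n : ℕ => (n : ℝ) ^ (-(1 - β))) atTop (𝓝 0) :=
    (tendsto_rpow_neg_atTop (by linarith)).comp tendsto_natCast_atTop_atTop
  have hev : ∀ᶠ n : ℕ in atTop, (n : ℝ) ^ (-(1 - β)) < δ := (tendsto_order.mp hlim).2 _ hδ0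
  obtain ⟨N2, hN2⟩ := eventually_atTop.mp hev
  refine ⟨N1 + N2 + 1, fun n M hn hM => ?_⟩
  have hnpos : 0 < n := by omega
  have hnR : (0 : ℝ) < (n : ℝ) := by exact_mod_cast hnpos
  have hmain := hN1 n (by omega) (patternFamily n M) ?_ ?_
  · refine le_trans ?_ hmain
    unfold fewProb subProb
    refine div_le_div_of_nonneg_right ?_ (Nat.cast_nonneg _)
    exact_mod_cast Finset.card_le_card (fewSet_subset n M)
  · have h1 : ((patternFamily n M).card : ℝ) ≤ (M : ℝ) ^ n := by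
      exact_mod_cast patternFamily_card n M
    have h2 : (M : ℝ) ^ n ≤ ((n : ℝ) ^ β) ^ n := pow_le_pow_left₀ (Nat.cast_nonneg _) hM n
    have h3 : ((n : ℝ) ^ β) ^ n = (n : ℝ) ^ (β * n) := by
      rw [Real.rpow_mul hnR.le, Real.rpow_natCast]
    rw [← h3]
    exact h1.trans h2
  · intro K hK
    have h1 : (Module.finrank ℝ K : ℝ) ≤ (M : ℝ) := by
      exact_mod_cast patternFamily_dim hK
    refine h1.trans (hM.trans ?_)
    have h2 := (hN2 n (by omega)).le
    have h3 : (n : ℝ) ^ β = (n : ℝ) ^ (-(1 - β)) * n := by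
      have : (n : ℝ) ^ (-(1 - β)) * (n : ℝ) ^ (1 : ℝ) = (n : ℝ) ^ (-(1 - β) + 1) :=
        (Real.rpow_add hnR _ _).symm
      rw [Real.rpow_one] at this
      rw [this]
      congr 1
      ring
    rw [h3]
    exact mul_le_mul_of_nonneg_right h2 hnR.le

/-- The low complexity part of the kernel has exponential rate at most `1/2`. -/
theorem result :
    (∀ (n : ℕ) (𝔎 : Finset (Submodule ℝ (Fin n → ℝ))), subProb n 𝔎 ≤ singProb n) ∧
    (∀ β δ : ℝ, 0 ≤ β → 0 ≤ δ → β + δ / 2 < 1 / 2 → ∀ ε : ℝ, 0 < ε → ∃ N : ℕ, ∀ n : ℕ, N ≤ n →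
      ∀ 𝔎 : Finset (Submodule ℝ (Fin n → ℝ)), (𝔎.card : ℝ) ≤ (n : ℝ) ^ (β * n) →
        (∀ K ∈ 𝔎, (Module.finrank ℝ K : ℝ) ≤ δ * n) → subProb n 𝔎 ≤ (1 / 2 + ε) ^ n) ∧
    (∀ β : ℝ, 0 ≤ β → β < 1 / 2 → ∀ ε : ℝ, 0 < ε → ∃ N : ℕ, ∀ n M : ℕ, N ≤ n →
      (M : ℝ) ≤ (n : ℝ) ^ β → fewProb n M ≤ (1 / 2 + ε) ^ n) :=
  ⟨subProb_le_singProb, sub_rate, few_rate⟩

end Vale.Agent.Results.P160.A000_subspaces
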