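import Vale.Agent.Results.P160.A0_sparse

/-!
Kernel vectors with few possible values: for a finite set `Λ` of reals with `|Λ| ≤ n^β`, `β < 1/2`,
the kernel of a symmetric random sign matrix holds a nonzero vector of `Λ^n` with probability at most
`(1/2 + ε)^n` for large `n`, uniformly in `Λ`. In particular for integer vectors of height `n^β`.

Vectors of small support are the sparse case. For a vector with `t` nonzero coordinates on a set `T`,
the rows outside `T` see independent signs on `T`: Littlewood-Offord (Erdős, through Sperner) gives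
`(C(t, t/2) / 2^t)^(n - t)`.
-/

open Finset Filter Topology
open Vale.Agent.Results.P160.A_polyfactor Vale.Agent.Results.P160.A0_sparse

namespace Vale.Agent.Results.P160.A00_height

/-- The Littlewood-Offord bound of Erdős, by Sperner's theorem. -/
lemma lo_card {ι : Type*} [Fintype ι] [DecidableEq ι] (x : ι → ℝ) (hx : ∀ a, x a ≠ 0) (c : ℝ) :
    ((Finset.univ : Finset (ι → ℤˣ)).filter
      (fun g => ∑ a, (((g a : ℤˣ) : ℤ) : ℝ) * x a = c)).card
      ≤ (Fintype.card ι).choose (Fintype.card ι / 2) := by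
  classical
  set Sg := (Finset.univ : Finset (ι → ℤˣ)).filter
      (fun g => ∑ a, (((g a : ℤˣ) : ℤ) : ℝ) * x a = c) with hSg
  let Aof : (ι → ℤˣ) → Finset ι :=
    fun g => Finset.univ.filter (fun a => 0 < (((g a : ℤˣ) : ℤ) : ℝ) * x a)
  have hu : ∀ u : ℤˣ, (((u : ℤˣ) : ℤ) : ℝ) = 1 ∨ (((u : ℤˣ) : ℤ) : ℝ) = -1 := by
    intro u
    rcases Int.units_eq_one_or u with h | h <;> simp [h]
  have key : ∀ u u' y : ℝ, (u = 1 ∨ u = -1) → (u' = 1 ∨ u' = -1) → (0 < u * y → 0 < u' * y) →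
      u * y ≤ u' * y := by
    intro u u' y hu hu' hm
    rcases hu with rfl | rfl <;> rcases hu' with rfl | rfl
    · exact le_refl _
    · by_contra hc
      have h0 := hm (by linarith)
      linarith
    · by_contra hc
      have h0 := hm (by linarith)
      linarith
    · exact le_refl _
  have hmono : ∀ g g' : ι → ℤˣ, Aof g ⊆ Aof g' → ∀ a,
      (((g a : ℤˣ) : ℤ) : ℝ) * x a ≤ (((g' a : ℤˣ) : ℤ) : ℝ) * x a := by
    intro g g' h a
    have hm : 0 < (((g a : ℤˣ) : ℤ) : ℝ) * x a → 0 < (((g' a : ℤˣ) : ℤ) : ℝ) * x a := by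
      intro hp
      have h1 : a ∈ Aof g := Finset.mem_filter.mpr ⟨Finset.mem_univ _, hp⟩
      exact (Finset.mem_filter.mp (h h1)).2
    exact key _ _ _ (hu _) (hu _) hm
  have hinj : ∀ g ∈ Sg, ∀ g' ∈ Sg, Aof g ⊆ Aof g' → g = g' := by
    intro g hg g' hg' hsub
    have h1 : ∑ a, (((g a : ℤˣ) : ℤ) : ℝ) * x a = c := (Finset.mem_filter.mp hg).2
    have h2 : ∑ a, (((g' a : ℤˣ) : ℤ) : ℝ) * x a = c := (Finset.mem_filter.mp hg').2
    have h3 := (Finset.sum_eq_sum_iff_of_le (s := Finset.univ)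
      (fun a _ => hmono g g' hsub a)).mp (h1.trans h2.symm)
    funext a
    have h4 := mul_right_cancel₀ (hx a) (h3 a (Finset.mem_univ a))
    exact Units.ext (by exact_mod_cast h4)
  have hanti : IsAntichain (· ⊆ ·) (SetLike.coe (Sg.image Aof)) := by
    intro A hA B hB hne hsub
    obtain ⟨g, hg, rfl⟩ := Finset.mem_image.mp (Finset.mem_coe.mp hA)
    obtain ⟨g', hg', rfl⟩ := Finset.mem_image.mp (Finset.mem_coe.mp hB)
    exact hne (by rw [hinj g hg g' hg' hsub])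
  have hcard : (Sg.image Aof).card = Sg.card :=
    Finset.card_image_of_injOn (fun g hg g' hg' h =>
      hinj g (Finset.mem_coe.mp hg) g' (Finset.mem_coe.mp hg') (le_of_eq h))
  rw [← hcard]
  exact hanti.sperner

lemma central_sq (m : ℕ) : (Nat.centralBinom m) ^ 2 * (2 * m + 1) ≤ 16 ^ m := by
  induction m with
  | zero => simp
  | succ m ih =>
    have h1 := Nat.succ_mul_centralBinom_succ m
    have hpos : 0 < (m + 1) ^ 2 := by positivity
    refine Nat.le_of_mul_le_mul_left ?_ hpos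
    calc (m + 1) ^ 2 * (Nat.centralBinom (m + 1) ^ 2 * (2 * (m + 1) + 1))
        = ((m + 1) * Nat.centralBinom (m + 1)) ^ 2 * (2 * m + 3) := by ring
      _ = (2 * (2 * m + 1) * Nat.centralBinom m) ^ 2 * (2 * m + 3) := by rw [h1]
      _ = (Nat.centralBinom m ^ 2 * (2 * m + 1)) * (4 * (2 * m + 1) * (2 * m + 3)) := by ring
      _ ≤ 16 ^ m * (4 * (2 * m + 1) * (2 * m + 3)) := Nat.mul_le_mul_right _ ih
      _ ≤ 16 ^ m * (16 * (m + 1) ^ 2) := by
          refine Nat.mul_le_mul_left _ ?_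
          nlinarith
      _ = (m + 1) ^ 2 * 16 ^ (m + 1) := by rw [pow_succ]; ring

lemma choose_half_sq (t : ℕ) : (t.choose (t / 2)) ^ 2 * t ≤ 4 ^ t := by
  obtain ⟨m, hm | hm⟩ := Nat.even_or_odd' t
  · subst hm
    have h1 : 2 * m / 2 = m := by omega
    rw [h1, ← Nat.centralBinom_eq_two_mul_choose]
    have h2 := central_sq m
    have h3 : (4 : ℕ) ^ (2 * m) = 16 ^ m := by rw [pow_mul]; norm_num
    rw [h3]
    refine le_trans (Nat.mul_le_mul_left _ (Nat.le_succ _)) h2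
  · subst hm
    have h1 : (2 * m + 1) / 2 = m := by omega
    rw [h1]
    have h2 := central_sq m
    have h4 : (2 * m + 1).choose m ≤ 2 * Nat.centralBinom m := by
      rw [Nat.centralBinom_eq_two_mul_choose]
      have h5 := Nat.add_one_mul_choose_eq (2 * m) m
      have h6 := Nat.choose_symm_half m
      rw [h6] at h5
      have h9 : (m + 1) * (2 * m + 1).choose m ≤ (m + 1) * (2 * (2 * m).choose m) := by
        rw [mul_comm (m + 1) ((2 * m + 1).choose m), ← h5]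
        nlinarith
      exact Nat.le_of_mul_le_mul_left h9 (Nat.succ_pos m)
    calc (2 * m + 1).choose m ^ 2 * (2 * m + 1)
        ≤ (2 * Nat.centralBinom m) ^ 2 * (2 * m + 1) :=
          Nat.mul_le_mul_right _ (Nat.pow_le_pow_left h4 2)
      _ = 4 * (Nat.centralBinom m ^ 2 * (2 * m + 1)) := by ring
      _ ≤ 4 * 16 ^ m := Nat.mul_le_mul_left _ h2
      _ = 4 ^ (2 * m + 1) := by
          rw [pow_succ, pow_mul]; norm_num; ring

variable {n : ℕ}

open Classical in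
/-- The sign choices with `A_f x = 0`. -/
noncomputable def Ex (x : Fin n → ℝ) : Finset (Sym2 (Fin n) → ℤˣ) :=
  Finset.univ.filter (fun f => ((symSign f).map (Int.cast : ℤ → ℝ)).mulVec x = 0)

lemma Ex_card (x : Fin n → ℝ) {T : Finset (Fin n)} (hT : ∀ a ∈ T, x a ≠ 0) :
    (Ex x).card * (2 ^ T.card) ^ (n - T.card)
      ≤ (T.card.choose (T.card / 2)) ^ (n - T.card) * 2 ^ Fintype.card (Sym2 (Fin n)) := by
  classical
  have hm : Fintype.card {r // r ∉ T} + T.card = n := by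
    have := card_off_add T
    simpa using this
  set m := Fintype.card {r // r ∉ T} with hmdef
  have hnm : n - T.card = m := by omega
  rw [hnm]
  set t := T.card with ht
  set C := t.choose (t / 2) with hC
  let emb : {r // r ∉ T} × (↥T) → Sym2 (Fin n) := fun p => s(p.1.1, p.2.1)
  have hemb : Function.Injective emb := by
    rintro ⟨r, a⟩ ⟨r', a'⟩ h
    rcases Sym2.eq_iff.mp h with ⟨h1, h2⟩ | ⟨h1, _⟩
    · have h3 : r = r' := Subtype.ext h1
      have h5 : a = a' := Subtype.ext h2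
      rw [h3, h5]
    · exact absurd (h1 ▸ a'.2) r.2
  set D : Finset (Sym2 (Fin n)) := Finset.univ.image emb with hD
  have hDcard : D.card = m * t := by
    rw [hD, Finset.card_image_of_injective _ hemb, Finset.card_univ, Fintype.card_prod,
      Fintype.card_coe]
  have hoffD : ∀ r a : Fin n, r ∉ T → a ∉ T → s(r, a) ∉ D := by
    intro r a hr ha hmem
    obtain ⟨p, _, hp⟩ := Finset.mem_image.mp hmem
    rcases Sym2.eq_iff.mp hp with ⟨_, h2⟩ | ⟨_, h1⟩
    · exact ha (h2 ▸ p.2.2)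
    · exact hr (h1 ▸ p.2.2)
  let Ψ : (Sym2 (Fin n) → ℤˣ) → ({y // y ∉ D} → ℤˣ) := fun f y => f y.1
  let rows : (Sym2 (Fin n) → ℤˣ) → ({r // r ∉ T} → (↥T) → ℤˣ) := fun f r a => f s(r.1, a.1)
  have hfib : ∀ g0 : {y // y ∉ D} → ℤˣ, ((Ex x).filter (fun f => Ψ f = g0)).card ≤ C ^ m := by
    intro g0
    by_cases hne : ((Ex x).filter (fun f => Ψ f = g0)).Nonempty
    swap
    · rw [Finset.not_nonempty_iff_eq_empty.mp hne]
      simp
    obtain ⟨f0, hf0⟩ := hne
    have hf0E : ((symSign f0).map (Int.cast : ℤ → ℝ)).mulVec x = 0 := by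
      have := (Finset.mem_filter.mp hf0).1
      simpa [Ex] using this
    have hf0Ψ : Ψ f0 = g0 := (Finset.mem_filter.mp hf0).2
    let c : {r // r ∉ T} → ℝ := fun r => ∑ a : ↥T, (((f0 s(r.1, a.1) : ℤˣ) : ℤ) : ℝ) * x a.1
    let Lr : {r // r ∉ T} → Finset ((↥T) → ℤˣ) := fun r =>
      Finset.univ.filter (fun g => ∑ a : ↥T, (((g a : ℤˣ) : ℤ) : ℝ) * x a.1 = c r)
    have hLr : ∀ r, (Lr r).card ≤ C := by
      intro r
      have h := lo_card (fun a : ↥T => x a.1) (fun a => hT a.1 a.2) (c r)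
      rwa [Fintype.card_coe] at h
    have h1 : ((Ex x).filter (fun f => Ψ f = g0)).card ≤ (Fintype.piFinset Lr).card := by
      refine Finset.card_le_card_of_injOn rows ?_ ?_
      · intro f hf
        have hfE : ((symSign f).map (Int.cast : ℤ → ℝ)).mulVec x = 0 := by
          have := (Finset.mem_filter.mp (Finset.mem_coe.mp hf)).1
          simpa [Ex] using this
        have hfΨ : Ψ f = g0 := (Finset.mem_filter.mp (Finset.mem_coe.mp hf)).2
        rw [Finset.mem_coe, Fintype.mem_piFinset]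
        intro r
        refine Finset.mem_filter.mpr ⟨Finset.mem_univ _, ?_⟩
        have e1 := congrFun hfE r.1
        have e2 := congrFun hf0E r.1
        simp only [Matrix.mulVec, dotProduct, Matrix.map_apply, symSign, Pi.zero_apply] at e1 e2
        rw [← Finset.sum_add_sum_compl T] at e1 e2
        have e3 : ∑ a ∈ Tᶜ, (((f s(r.1, a) : ℤˣ) : ℤ) : ℝ) * x a
            = ∑ a ∈ Tᶜ, (((f0 s(r.1, a) : ℤˣ) : ℤ) : ℝ) * x a := by
          refine Finset.sum_congr rfl (fun a ha => ?_)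
          have hnot := hoffD r.1 a r.2 (Finset.mem_compl.mp ha)
          have : Ψ f ⟨s(r.1, a), hnot⟩ = Ψ f0 ⟨s(r.1, a), hnot⟩ := by rw [hfΨ, hf0Ψ]
          have h' : f s(r.1, a) = f0 s(r.1, a) := this
          rw [h']
        have e4 : ∑ a ∈ T, (((f s(r.1, a) : ℤˣ) : ℤ) : ℝ) * x a
            = ∑ a ∈ T, (((f0 s(r.1, a) : ℤˣ) : ℤ) : ℝ) * x a := by
          rw [e3] at e1
          linarith
        exact (Finset.sum_coe_sort T (fun a => (((f s(r.1, a) : ℤˣ) : ℤ) : ℝ) * x a)).trans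
          (e4.trans (Finset.sum_coe_sort T
            (fun a => (((f0 s(r.1, a) : ℤˣ) : ℤ) : ℝ) * x a)).symm)
      · intro f hf f' hf' h
        have hfΨ : Ψ f = g0 := (Finset.mem_filter.mp (Finset.mem_coe.mp hf)).2
        have hfΨ' : Ψ f' = g0 := (Finset.mem_filter.mp (Finset.mem_coe.mp hf')).2
        funext y
        by_cases hy : y ∈ D
        · obtain ⟨p, _, rfl⟩ := Finset.mem_image.mp hy
          exact congrFun (congrFun h p.1) p.2
        · have : Ψ f ⟨y, hy⟩ = Ψ f' ⟨y, hy⟩ := by rw [hfΨ, hfΨ']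
          exact this
    refine h1.trans ?_
    rw [Fintype.card_piFinset]
    calc ∏ r, (Lr r).card ≤ ∏ _r : {r // r ∉ T}, C :=
          Finset.prod_le_prod' (fun r _ => hLr r)
      _ = C ^ m := by rw [Finset.prod_const, Finset.card_univ]
  set off := Fintype.card {y // y ∉ D} with hoff
  have hoffadd : off + D.card = Fintype.card (Sym2 (Fin n)) := card_off_add D
  have hcard1 : (Ex x).card ≤ 2 ^ off * C ^ m := by
    rw [Finset.card_eq_sum_card_image Ψ (Ex x)]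
    calc ∑ g0 ∈ (Ex x).image Ψ, ((Ex x).filter (fun f => Ψ f = g0)).card
        ≤ ∑ _g0 ∈ (Ex x).image Ψ, C ^ m := Finset.sum_le_sum (fun g0 _ => hfib g0)
      _ = ((Ex x).image Ψ).card * C ^ m := by rw [Finset.sum_const, smul_eq_mul]
      _ ≤ 2 ^ off * C ^ m := by
          refine Nat.mul_le_mul_right _ ?_
          calc ((Ex x).image Ψ).card ≤ Fintype.card ({y // y ∉ D} → ℤˣ) := Finset.card_le_univ _
            _ = 2 ^ off := by rw [Fintype.card_fun, Fintype.card_units_int]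
  calc (Ex x).card * (2 ^ t) ^ m ≤ (2 ^ off * C ^ m) * (2 ^ t) ^ m :=
        Nat.mul_le_mul_right _ hcard1
    _ = C ^ m * 2 ^ (off + m * t) := by
        rw [pow_add, ← pow_mul, mul_comm t m]; ring
    _ = C ^ m * 2 ^ Fintype.card (Sym2 (Fin n)) := by
        rw [← hDcard, hoffadd]

open Classical in
/-- The sign choices whose matrix has a nonzero kernel vector with all coordinates in `Λ`. -/
noncomputable def heightSet (n : ℕ) (Λ : Finset ℝ) : Finset (Sym2 (Fin n) → ℤˣ) :=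
  Finset.univ.filter (fun f => ∃ x : Fin n → ℝ, x ≠ 0 ∧ (∀ i, x i ∈ Λ) ∧
    ((symSign f).map (Int.cast : ℤ → ℝ)).mulVec x = 0)

/-- The probability that the kernel holds a nonzero vector with all coordinates in `Λ`. -/
noncomputable def heightProb (n : ℕ) (Λ : Finset ℝ) : ℝ :=
  ((heightSet n Λ).card : ℝ) / (Fintype.card (Sym2 (Fin n) → ℤˣ) : ℝ)

/-- The Littlewood-Offord ratio. -/
noncomputable def loRatio (t : ℕ) : ℝ := ((t.choose (t / 2) : ℕ) : ℝ) / 2 ^ t

/-- The explicit bound, for every cut `t` of the support size. -/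
theorem heightProb_le (n t : ℕ) (ht : 1 ≤ t) (Λ : Finset ℝ) :
    heightProb n Λ ≤ sparseProb n (t - 1) + (Λ.card : ℝ) ^ n * loRatio t ^ (n - t) := by
  classical
  set Q : ℕ := 2 ^ Fintype.card (Sym2 (Fin n)) with hQ
  have hQpos : (0 : ℝ) < (Q : ℝ) := by rw [hQ]; positivity
  have hcard : (Fintype.card (Sym2 (Fin n) → ℤˣ) : ℝ) = (Q : ℝ) := by
    rw [Fintype.card_fun, Fintype.card_units_int]
  set P : Finset (Fin n → ℝ) := (Fintype.piFinset (fun _ => Λ)).filter
    (fun x => t ≤ (Finset.univ.filter (fun i => x i ≠ 0)).card) with hP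
  have hsub : heightSet n Λ ⊆ sparseSet n (t - 1) ∪ P.biUnion Ex := by
    intro f hf
    obtain ⟨x, hx0, hxΛ, hxker⟩ : ∃ x : Fin n → ℝ, x ≠ 0 ∧ (∀ i, x i ∈ Λ) ∧
        ((symSign f).map (Int.cast : ℤ → ℝ)).mulVec x = 0 := by
      simpa [heightSet] using hf
    by_cases hs : t ≤ (Finset.univ.filter (fun i => x i ≠ 0)).card
    · refine Finset.mem_union_right _ (Finset.mem_biUnion.mpr ⟨x, ?_, ?_⟩)
      · exact Finset.mem_filter.mpr ⟨Fintype.mem_piFinset.mpr hxΛ, hs⟩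
      · simpa [Ex] using hxker
    · refine Finset.mem_union_left _ ?_
      simp only [sparseSet, Finset.mem_filter, Finset.mem_univ, true_and]
      exact ⟨x, hx0, by omega, hxker⟩
  have hEx : ∀ x ∈ P, ((Ex x).card : ℝ) ≤ loRatio t ^ (n - t) * (Q : ℝ) := by
    intro x hx
    obtain ⟨T, hTsub, hTcard⟩ := Finset.exists_subset_card_eq (Finset.mem_filter.mp hx).2
    have hT : ∀ a ∈ T, x a ≠ 0 := fun a ha => (Finset.mem_filter.mp (hTsub ha)).2
    have h := Ex_card x hT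
    rw [hTcard] at h
    have h' : ((Ex x).card : ℝ) * (2 ^ t) ^ (n - t)
        ≤ ((t.choose (t / 2) : ℕ) : ℝ) ^ (n - t) * (Q : ℝ) := by
      exact_mod_cast h
    have hpos : (0 : ℝ) < (2 ^ t) ^ (n - t) := by positivity
    have h2 : loRatio t ^ (n - t) = ((t.choose (t / 2) : ℕ) : ℝ) ^ (n - t) / (2 ^ t) ^ (n - t) := by
      rw [loRatio, div_pow]
    rw [h2, div_mul_eq_mul_div, le_div_iff₀ hpos]
    exact h'
  have hPcard : (P.card : ℝ) ≤ (Λ.card : ℝ) ^ n := by
    have h1 : P.card ≤ (Fintype.piFinset (fun _ : Fin n => Λ)).card := Finset.card_filter_le _ _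
    rw [Fintype.card_piFinset_const] at h1
    have h2 : P.card ≤ Λ.card ^ n := by simpa using h1
    exact_mod_cast h2
  have hlo0 : (0 : ℝ) ≤ loRatio t ^ (n - t) := by
    unfold loRatio
    positivity
  have hU : ((P.biUnion Ex).card : ℝ) ≤ (Λ.card : ℝ) ^ n * (loRatio t ^ (n - t) * (Q : ℝ)) := by
    calc ((P.biUnion Ex).card : ℝ) ≤ ((∑ x ∈ P, (Ex x).card : ℕ) : ℝ) := by
          exact_mod_cast Finset.card_biUnion_le
      _ = ∑ x ∈ P, ((Ex x).card : ℝ) := by push_cast; rfl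
      _ ≤ ∑ _x ∈ P, loRatio t ^ (n - t) * (Q : ℝ) := Finset.sum_le_sum hEx
      _ = (P.card : ℝ) * (loRatio t ^ (n - t) * (Q : ℝ)) := by
          rw [Finset.sum_const, nsmul_eq_mul]
      _ ≤ (Λ.card : ℝ) ^ n * (loRatio t ^ (n - t) * (Q : ℝ)) :=
          mul_le_mul_of_nonneg_right hPcard (by positivity)
  have hall : ((heightSet n Λ).card : ℝ) ≤ ((sparseSet n (t - 1)).card : ℝ)
      + (Λ.card : ℝ) ^ n * (loRatio t ^ (n - t) * (Q : ℝ)) := by
    have h1 : (heightSet n Λ).card ≤ (sparseSet n (t - 1)).card + (P.biUnion Ex).card :=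
      (Finset.card_le_card hsub).trans (Finset.card_union_le _ _)
    have h2 : ((heightSet n Λ).card : ℝ)
        ≤ ((sparseSet n (t - 1)).card : ℝ) + ((P.biUnion Ex).card : ℝ) := by
      exact_mod_cast h1
    linarith
  unfold heightProb sparseProb
  rw [hcard, div_add' _ _ _ hQpos.ne', div_le_div_iff_of_pos_right hQpos]
  calc ((heightSet n Λ).card : ℝ)
      ≤ ((sparseSet n (t - 1)).card : ℝ) + (Λ.card : ℝ) ^ n * (loRatio t ^ (n - t) * (Q : ℝ)) := hall
    _ = _ := by ring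

lemma loRatio_sq (t : ℕ) : loRatio t ^ 2 * t ≤ 1 := by
  have h := choose_half_sq t
  have h' : ((t.choose (t / 2) : ℕ) : ℝ) ^ 2 * (t : ℝ) ≤ (4 : ℝ) ^ t := by exact_mod_cast h
  have h2 : ((2 : ℝ) ^ t) ^ 2 = 4 ^ t := by
    rw [← pow_mul, mul_comm, pow_mul]; norm_num
  unfold loRatio
  rw [div_pow, h2, div_mul_eq_mul_div, div_le_one (by positivity)]
  exact h'

lemma loRatio_nonneg (t : ℕ) : 0 ≤ loRatio t := by
  unfold loRatio
  positivity

lemma sparseProb_mono (n : ℕ) {k k' : ℕ} (h : k ≤ k') : sparseProb n k ≤ sparseProb n k' := by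
  classical
  unfold sparseProb
  refine div_le_div_of_nonneg_right ?_ (Nat.cast_nonneg _)
  have : (sparseSet n k).card ≤ (sparseSet n k').card := by
    refine Finset.card_le_card (fun f hf => ?_)
    obtain ⟨x, hx0, hxc, hxker⟩ : ∃ x : Fin n → ℝ, x ≠ 0 ∧
        (Finset.univ.filter (fun i => x i ≠ 0)).card ≤ k ∧
        ((symSign f).map (Int.cast : ℤ → ℝ)).mulVec x = 0 := by
      simpa [sparseSet] using hf
    simp only [sparseSet, Finset.mem_filter, Finset.mem_univ, true_and]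
    exact ⟨x, hx0, hxc.trans h, hxker⟩
  exact_mod_cast this

lemma add_pow_le_pow_add {a b : ℝ} (ha : 0 ≤ a) (hb : 0 ≤ b) {n : ℕ} (hn : 1 ≤ n) :
    a ^ n + b ^ n ≤ (a + b) ^ n := by
  induction n, hn using Nat.le_induction with
  | base => simp
  | succ m hm ih =>
    have h1 : 0 ≤ a ^ m := by positivity
    have h2 : 0 ≤ b ^ m := by positivity
    calc a ^ (m + 1) + b ^ (m + 1) ≤ (a ^ m + b ^ m) * (a + b) := by
          rw [pow_succ, pow_succ]; nlinarith [mul_nonneg h1 hb, mul_nonneg h2 ha]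
      _ ≤ (a + b) ^ m * (a + b) := mul_le_mul_of_nonneg_right ih (by positivity)
      _ = (a + b) ^ (m + 1) := by rw [pow_succ]

/-- The rate: if `β < 1/2` and `ε > 0` then for all large `n` and every finite `Λ ⊂ ℝ` with
`|Λ| ≤ n^β`, the kernel holds a nonzero vector of `Λ^n` with probability at most `(1/2 + ε)^n`. -/
theorem height_rate (β : ℝ) (hβ : β < 1 / 2) (ε : ℝ) (hε : 0 < ε) :
    ∃ N : ℕ, ∀ n : ℕ, N ≤ n → ∀ Λ : Finset ℝ, (Λ.card : ℝ) ≤ (n : ℝ) ^ β →
      heightProb n Λ ≤ (1 / 2 + ε) ^ n := by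
  obtain ⟨L0, hL0pos, hL0⟩ := sparse_rate (ε / 2) (by positivity)
  obtain ⟨L1, hL1⟩ := exists_nat_gt (1 / (1 / 2 - β))
  have hgap : 0 < 1 / 2 - β := by linarith
  have hL1pos : (0 : ℝ) < L1 := lt_trans (by positivity) hL1
  set L : ℕ := L0 + L1 + 2 with hL
  have hLpos : 0 < L := by omega
  have hLR : (0 : ℝ) < (L : ℝ) := by exact_mod_cast hLpos
  have hLL1 : (L1 : ℝ) ≤ L := by
    rw [hL]; push_cast
    have : (0 : ℝ) ≤ L0 := Nat.cast_nonneg _
    linarith
  set γ : ℝ := 1 / 2 - 1 / (L : ℝ) with hγ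
  have hγβ : β < γ := by
    have h1 : 1 / (L : ℝ) ≤ 1 / (L1 : ℝ) := one_div_le_one_div_of_le hL1pos hLL1
    have h2 : 1 / (L1 : ℝ) < 1 / 2 - β := by
      rw [div_lt_iff₀ hL1pos]
      rw [div_lt_iff₀ hgap] at hL1
      linarith
    rw [hγ]
    linarith
  set θ : ℝ := ε / 2 with hθ
  have hθpos : 0 < θ := by positivity
  -- the numeric limit
  have hlim : Tendsto (fun n : ℕ => (L : ℝ) ^ γ * (n : ℝ) ^ (-(γ - β))) atTop (𝓝 0) := by
    have h1 : Tendsto (fun n : ℕ => (n : ℝ) ^ (-(γ - β))) atTop (𝓝 0) :=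
      (tendsto_rpow_neg_atTop (by linarith)).comp tendsto_natCast_atTop_atTop
    simpa using h1.const_mul ((L : ℝ) ^ γ)
  have hev : ∀ᶠ n : ℕ in atTop, (L : ℝ) ^ γ * (n : ℝ) ^ (-(γ - β)) < θ :=
    (tendsto_order.mp hlim).2 _ hθpos
  obtain ⟨N0, hN0⟩ := eventually_atTop.mp hev
  refine ⟨N0 + L + 1, fun n hn Λ hΛ => ?_⟩
  have hnN0 : N0 ≤ n := by omega
  have hnL : L ≤ n := by omega
  have hnpos : 0 < n := by omega
  have hnR : (0 : ℝ) < (n : ℝ) := by exact_mod_cast hnpos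
  set q : ℕ := n / L with hq
  set t : ℕ := q + 1 with ht
  have ht1 : 1 ≤ t := Nat.le_add_left 1 q
  have hsub1 : t - 1 = q := Nat.add_sub_cancel q 1
  -- the real size of t
  have hLt : n < L * t := Nat.lt_mul_div_succ n hLpos
  have hLtR : (n : ℝ) < L * (t : ℝ) := by exact_mod_cast hLt
  have hntle : L * q ≤ n := Nat.mul_div_le _ _
  have htle : L * t ≤ 2 * n := by
    rw [ht, mul_add, mul_one]
    omega
  have htleR : (L : ℝ) * (t : ℝ) ≤ 2 * (n : ℝ) := by exact_mod_cast htle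
  have hLge2 : (2 : ℝ) ≤ L := by
    have : 2 ≤ L := by omega
    exact_mod_cast this
  have htn : t ≤ n := by
    have h3 : 2 * t ≤ L * t := Nat.mul_le_mul_right _ (by omega)
    omega
  set u : ℝ := (L : ℝ) / n with hu
  have hu0 : 0 < u := by positivity
  have hu1 : u ≤ 1 := by
    rw [hu, div_le_one hnR]
    exact_mod_cast hnL
  -- the sparse part
  have hsp : sparseProb n (t - 1) ≤ (1 / 2 + ε / 2) ^ n := by
    rw [hsub1]
    refine (sparseProb_mono n ?_).trans (hL0 n)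
    exact Nat.div_le_div_left (by omega) hL0pos
  -- the rest
  have hρ : loRatio t ≤ u ^ (1 / 2 : ℝ) := by
    rw [← Real.sqrt_eq_rpow]
    refine Real.le_sqrt_of_sq_le ?_
    have h1 := loRatio_sq t
    have htpos : (0 : ℝ) < (t : ℝ) := by
      have : 0 < t := ht1
      exact_mod_cast this
    have h2 : loRatio t ^ 2 ≤ 1 / (t : ℝ) := by
      rw [le_div_iff₀ htpos]
      exact h1
    refine h2.trans ?_
    rw [hu, div_le_div_iff₀ htpos hnR]
    nlinarith
  have hρ0 := loRatio_nonneg t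
  have hexp : γ * (n : ℝ) ≤ (((n - t : ℕ) : ℝ)) * (1 / 2) := by
    rw [Nat.cast_sub htn, hγ]
    have h5 : (t : ℝ) ≤ 2 * (n : ℝ) / L := by
      rw [le_div_iff₀ hLR]
      linarith
    have h6 : 1 / (L : ℝ) * (n : ℝ) = (n : ℝ) / L := by ring
    have h7 : 2 * (n : ℝ) / L = 2 * ((n : ℝ) / L) := by ring
    nlinarith
  have hpow1 : loRatio t ^ (n - t) ≤ (u ^ γ) ^ n := by
    calc loRatio t ^ (n - t) ≤ (u ^ (1 / 2 : ℝ)) ^ (n - t) := pow_le_pow_left₀ hρ0 hρ _
      _ = u ^ (((n - t : ℕ) : ℝ) * (1 / 2)) := by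
          rw [← Real.rpow_natCast, ← Real.rpow_mul hu0.le]
          ring_nf
      _ ≤ u ^ (γ * (n : ℝ)) := Real.rpow_le_rpow_of_exponent_ge hu0 hu1 hexp
      _ = (u ^ γ) ^ n := by
          rw [Real.rpow_mul hu0.le, Real.rpow_natCast]
  have hbase : (n : ℝ) ^ β * u ^ γ ≤ θ := by
    have h1 := (hN0 n hnN0).le
    have h2 : (n : ℝ) ^ β * u ^ γ = (L : ℝ) ^ γ * (n : ℝ) ^ (-(γ - β)) := by
      rw [hu, Real.div_rpow hLR.le hnR.le, neg_sub, Real.rpow_sub hnR β γ]
      ring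
    rw [h2]
    exact h1
  have hrest : (Λ.card : ℝ) ^ n * loRatio t ^ (n - t) ≤ θ ^ n := by
    have hM0 : (0 : ℝ) ≤ (Λ.card : ℝ) := Nat.cast_nonneg _
    calc (Λ.card : ℝ) ^ n * loRatio t ^ (n - t)
        ≤ ((n : ℝ) ^ β) ^ n * (u ^ γ) ^ n :=
          mul_le_mul (pow_le_pow_left₀ hM0 hΛ n) hpow1 (by positivity) (by positivity)
      _ = ((n : ℝ) ^ β * u ^ γ) ^ n := by rw [mul_pow]
      _ ≤ θ ^ n := pow_le_pow_left₀ (by positivity) hbase n
  calc heightProb n Λ ≤ sparseProb n (t - 1) + (Λ.card : ℝ) ^ n * loRatio t ^ (n - t) :=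
        heightProb_le n t ht1 Λ
    _ ≤ (1 / 2 + ε / 2) ^ n + θ ^ n := add_le_add hsp hrest
    _ ≤ (1 / 2 + ε / 2 + θ) ^ n := add_pow_le_pow_add (by positivity) hθpos.le hnpos
    _ = (1 / 2 + ε) ^ n := by rw [hθ]; ring_nf

/-- Members of `heightSet` are singular. -/
theorem heightProb_le_singProb (n : ℕ) (Λ : Finset ℝ) : heightProb n Λ ≤ singProb n := by
  classical
  unfold heightProb singProb
  refine div_le_div_of_nonneg_right ?_ (Nat.cast_nonneg _)
  have : (heightSet n Λ).card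
      ≤ ((Finset.univ : Finset (Sym2 (Fin n) → ℤˣ)).filter (fun f => (symSign f).det = 0)).card := by
    refine Finset.card_le_card (fun f hf => ?_)
    obtain ⟨x, hx0, _, hxker⟩ : ∃ x : Fin n → ℝ, x ≠ 0 ∧ (∀ i, x i ∈ Λ) ∧
        ((symSign f).map (Int.cast : ℤ → ℝ)).mulVec x = 0 := by
      simpa [heightSet] using hf
    simp only [Finset.mem_filter, Finset.mem_univ, true_and]
    have hdet : ((symSign f).map (Int.cast : ℤ → ℝ)).det = 0 :=
      Matrix.exists_mulVec_eq_zero_iff.mp ⟨x, hx0, hxker⟩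
    have h2 := (Int.castRingHom ℝ).map_det (symSign f)
    have h3 : (Int.castRingHom ℝ).mapMatrix (symSign f)
        = (symSign f).map (Int.cast : ℤ → ℝ) := rfl
    rw [h3, hdet] at h2
    simpa using h2
  exact_mod_cast this

lemma rowEv_subset_height {i j : Fin n} (hij : i ≠ j) (s : ℤˣ) {Λ : Finset ℝ}
    (h1 : (1 : ℝ) ∈ Λ) (hm1 : (-1 : ℝ) ∈ Λ) (h0 : (0 : ℝ) ∈ Λ) :
    rowEv i j s ⊆ heightSet n Λ := by
  classical
  intro f hf
  have hf' : ∀ m, f s(i, m) = s * f s(j, m) := by simpa [rowEv] using hf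
  simp only [heightSet, Finset.mem_filter, Finset.mem_univ, true_and]
  let v : Fin n → ℝ := Pi.single i 1 - (((s : ℤˣ) : ℤ) : ℝ) • Pi.single j 1
  refine ⟨v, ?_, ?_, ?_⟩
  · intro h
    have := congrFun h i
    simp [v, hij] at this
  · intro a
    by_cases hai : a = i
    · subst hai
      simpa [v, hij] using h1
    · by_cases haj : a = j
      · subst haj
        rcases Int.units_eq_one_or s with hs | hs
        · simpa [v, hs, Pi.single_apply, hai] using hm1
        · simpa [v, hs, Pi.single_apply, hai] using h1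
      · simpa [v, Pi.single_apply, hai, haj] using h0
  · ext r
    show (((symSign f).map (Int.cast : ℤ → ℝ)).mulVec
      (Pi.single i 1 - (((s : ℤˣ) : ℤ) : ℝ) • Pi.single j 1)) r = 0
    have h1 : ((f s(r, i) : ℤˣ) : ℤ) = (s : ℤ) * (f s(r, j) : ℤˣ) := by
      rw [Sym2.eq_swap, hf' r, Units.val_mul, Sym2.eq_swap]
    have h2 : (((f s(r, i) : ℤˣ) : ℤ) : ℝ) = ((s : ℤ) : ℝ) * ((f s(r, j) : ℤˣ) : ℤ) := by
      exact_mod_cast h1
    rw [Matrix.mulVec_sub, Matrix.mulVec_smul, Matrix.mulVec_single_one, Matrix.mulVec_single_one]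
    simp only [Pi.sub_apply, Pi.smul_apply, Matrix.col_apply, Pi.zero_apply, smul_eq_mul,
      Matrix.map_apply, symSign]
    rw [h2, sub_self]

/-- The Bonferroni bound for the event with entries in `Λ`. -/
theorem heightProb_ge (n : ℕ) {Λ : Finset ℝ} (h1Λ : (1 : ℝ) ∈ Λ) (hm1Λ : (-1 : ℝ) ∈ Λ)
    (h0Λ : (0 : ℝ) ∈ Λ) :
    ((n : ℝ) * (n - 1)) / 2 ^ n - 256 * (n : ℝ) ^ 4 / 4 ^ n ≤ heightProb n Λ := by
  classical
  set I : Finset (Fin n × Fin n) := (Finset.univ : Finset (Fin n)).offDiag with hI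
  have hIcard : I.card = n * n - n := by
    rw [hI, Finset.offDiag_card]; simp
  have hImem : ∀ e ∈ I, e.1 ≠ e.2 := by
    intro e he
    exact (Finset.mem_offDiag.mp he).2.2
  let E : Fin n × Fin n → Finset (Sym2 (Fin n) → ℤˣ) := fun e => rowEv e.1 e.2 (sgn e.1 e.2)
  have hb := bonf I E
  set N : ℕ := 2 ^ Fintype.card (Sym2 (Fin n)) with hN
  set Sing : Finset (Sym2 (Fin n) → ℤˣ) := heightSet n Λ with hSing
  have hU : (I.biUnion E).card ≤ Sing.card := by
    refine Finset.card_le_card (fun f hf => ?_)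
    obtain ⟨e, he, hfe⟩ := Finset.mem_biUnion.mp hf
    exact rowEv_subset_height (hImem e he) _ h1Λ hm1Λ h0Λ hfe
  have hNpos : (0 : ℝ) < (N : ℝ) := by
    rw [hN]; positivity
  have hcard : (Fintype.card (Sym2 (Fin n) → ℤˣ) : ℝ) = (N : ℝ) := by
    rw [Fintype.card_fun, Fintype.card_units_int]
  have hsum1 : ((I.card : ℝ)) * ((N : ℝ) / 2 ^ n) ≤ ∑ e ∈ I, ((E e).card : ℝ) := by
    rw [← nsmul_eq_mul]
    refine Finset.card_nsmul_le_sum _ _ _ (fun e he => ?_)
    have h := rowEv_card_ge (hImem e he) (sgn e.1 e.2)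
    rw [div_le_iff₀ (by positivity)]
    have h' : (N : ℝ) ≤ 2 ^ n * ((E e).card : ℝ) := by exact_mod_cast h
    linarith
  have hsum2 : ∑ e ∈ I, ∑ e' ∈ I.erase e, ((E e ∩ E e').card : ℝ)
      ≤ (I.card : ℝ) * ((I.card : ℝ) * (256 * (N : ℝ) / 4 ^ n)) := by
    have hin : ∀ e ∈ I, ∑ e' ∈ I.erase e, ((E e ∩ E e').card : ℝ)
        ≤ (I.card : ℝ) * (256 * (N : ℝ) / 4 ^ n) := by
      intro e he
      have h1 : ∑ e' ∈ I.erase e, ((E e ∩ E e').card : ℝ)
          ≤ ((I.erase e).card : ℝ) * (256 * (N : ℝ) / 4 ^ n) := by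
        rw [← nsmul_eq_mul]
        refine Finset.sum_le_card_nsmul _ _ _ (fun e' he' => ?_)
        have hne : e' ≠ e := (Finset.mem_erase.mp he').1
        have h' := inter_card_le (hImem e he) (hImem e' (Finset.mem_of_mem_erase he')) hne
        rw [le_div_iff₀ (by positivity)]
        exact_mod_cast h'
      have h2 : ((I.erase e).card : ℝ) ≤ (I.card : ℝ) := by
        exact_mod_cast Finset.card_erase_le
      have h3 : (0 : ℝ) ≤ 256 * (N : ℝ) / 4 ^ n := by positivity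
      exact h1.trans (mul_le_mul_of_nonneg_right h2 h3)
    calc ∑ e ∈ I, ∑ e' ∈ I.erase e, ((E e ∩ E e').card : ℝ)
        ≤ ∑ _e ∈ I, (I.card : ℝ) * (256 * (N : ℝ) / 4 ^ n) := Finset.sum_le_sum hin
      _ = _ := by rw [Finset.sum_const, nsmul_eq_mul]
  have hbR : ∑ e ∈ I, ((E e).card : ℝ) ≤ (Sing.card : ℝ)
      + ∑ e ∈ I, ∑ e' ∈ I.erase e, ((E e ∩ E e').card : ℝ) := by
    have h : ∑ e ∈ I, (E e).card ≤ Sing.card + ∑ e ∈ I, ∑ e' ∈ I.erase e, (E e ∩ E e').card := by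
      omega
    exact_mod_cast h
  have hIR : (I.card : ℝ) = (n : ℝ) * (n - 1) := by
    rw [hIcard]
    have hle : n ≤ n * n := Nat.le_mul_self n
    rw [Nat.cast_sub hle]
    push_cast
    ring
  have hIle : (I.card : ℝ) * (I.card : ℝ) ≤ (n : ℝ) ^ 4 := by
    rw [hIR]
    have hn0 : (0 : ℝ) ≤ n := Nat.cast_nonneg n
    rcases Nat.eq_zero_or_pos n with h0 | h0
    · subst h0; simp
    · have hn1 : (1 : ℝ) ≤ n := by exact_mod_cast h0
      have : (n : ℝ) - 1 ≤ n := by linarith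
      have h01 : (0 : ℝ) ≤ (n : ℝ) - 1 := by linarith
      nlinarith [mul_le_mul this this h01 hn0, sq_nonneg (n : ℝ)]
  have hfinal : (I.card : ℝ) * ((N : ℝ) / 2 ^ n) - (n : ℝ) ^ 4 * (256 * (N : ℝ) / 4 ^ n)
      ≤ (Sing.card : ℝ) := by
    have h3 : (0 : ℝ) ≤ 256 * (N : ℝ) / 4 ^ n := by positivity
    have h4 : (I.card : ℝ) * ((I.card : ℝ) * (256 * (N : ℝ) / 4 ^ n))
        ≤ (n : ℝ) ^ 4 * (256 * (N : ℝ) / 4 ^ n) := by
      rw [← mul_assoc]
      exact mul_le_mul_of_nonneg_right hIle h3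
    linarith
  unfold heightProb
  rw [hcard, le_div_iff₀ hNpos]
  rw [hIR] at hfinal
  calc (((n : ℝ) * (n - 1)) / 2 ^ n - 256 * (n : ℝ) ^ 4 / 4 ^ n) * (N : ℝ)
      = (n : ℝ) * (n - 1) * ((N : ℝ) / 2 ^ n) - (n : ℝ) ^ 4 * (256 * (N : ℝ) / 4 ^ n) := by ring
    _ ≤ _ := hfinal

/-- The exponential rate of the event that the kernel holds a nonzero vector with entries in a set
of at most `n^β` values, `β < 1/2`, is exactly `1/2`, uniformly in the set. -/
theorem result :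
    (∀ (n : ℕ) (Λ : Finset ℝ), heightProb n Λ ≤ singProb n) ∧
    (∀ (n t : ℕ) (Λ : Finset ℝ), 1 ≤ t →
      heightProb n Λ ≤ sparseProb n (t - 1)
        + (Λ.card : ℝ) ^ n * (((t.choose (t / 2) : ℕ) : ℝ) / 2 ^ t) ^ (n - t)) ∧
    (∀ β : ℝ, β < 1 / 2 → ∀ ε : ℝ, 0 < ε → ∃ N : ℕ, ∀ n : ℕ, N ≤ n → ∀ Λ : Finset ℝ,
      (Λ.card : ℝ) ≤ (n : ℝ) ^ β → heightProb n Λ ≤ (1 / 2 + ε) ^ n) ∧
    (∀ (n : ℕ) (Λ : Finset ℝ), (1 : ℝ) ∈ Λ → (-1 : ℝ) ∈ Λ → (0 : ℝ) ∈ Λ →
      ((n : ℝ) * (n - 1)) / 2 ^ n - 256 * (n : ℝ) ^ 4 / 4 ^ n ≤ heightProb n Λ) :=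
  ⟨heightProb_le_singProb, fun n t Λ ht => heightProb_le n t ht Λ, height_rate,
    fun n _ h1 hm1 h0 => heightProb_ge n h1 hm1 h0⟩

end Vale.Agent.Results.P160.A00_height
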