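import Vale.Agent.Results.P160.A_polyfactor

/-!
Sparse kernel vectors of symmetric random sign matrices: the event that the kernel holds a nonzero
real vector with at most `n / L` nonzero coordinates has probability at most `(1/2 + ε)^n`.

Rows outside the support are independent sign vectors on the support: a row exposure argument gives
`2^(-(n-t)) ∑_{j<t} C(n-t, j)` for a fixed support of size `t`.
-/

open Finset Filter Topology
open Vale.Agent.Results.P160.A_polyfactor

namespace Vale.Agent.Results.P160.A0_sparse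

section Rows

variable {ι : Type*} [Fintype ι] [DecidableEq ι]

/-- The hyperplane orthogonal to a sign vector. -/
def hyp (r : ι → ℤˣ) : Submodule ℝ (ι → ℝ) where
  carrier := {x | ∑ a, (((r a : ℤˣ) : ℤ) : ℝ) * x a = 0}
  add_mem' := by
    intro x y hx hy
    simp only [Set.mem_setOf_eq] at hx hy ⊢
    simp only [Pi.add_apply, mul_add, Finset.sum_add_distrib, hx, hy, add_zero]
  zero_mem' := by simp
  smul_mem' := by
    intro c x hx
    simp only [Set.mem_setOf_eq] at hx ⊢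
    simp only [Pi.smul_apply, smul_eq_mul]
    have : ∑ a, (((r a : ℤˣ) : ℤ) : ℝ) * (c * x a) = c * ∑ a, (((r a : ℤˣ) : ℤ) : ℝ) * x a := by
      rw [Finset.mul_sum]; exact Finset.sum_congr rfl (fun a _ => by ring)
    rw [this, hx, mul_zero]

lemma mem_hyp {r : ι → ℤˣ} {x : ι → ℝ} :
    x ∈ hyp r ↔ ∑ a, (((r a : ℤˣ) : ℤ) : ℝ) * x a = 0 := Iff.rfl

/-- The common kernel of the rows inside `K`. -/
def Zk (K : Submodule ℝ (ι → ℝ)) {m : ℕ} (ρ : Fin m → ι → ℤˣ) : Submodule ℝ (ι → ℝ) :=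
  K ⊓ ⨅ i, hyp (ρ i)

lemma mem_Zk {K : Submodule ℝ (ι → ℝ)} {m : ℕ} {ρ : Fin m → ι → ℤˣ} {x : ι → ℝ} :
    x ∈ Zk K ρ ↔ x ∈ K ∧ ∀ i, x ∈ hyp (ρ i) := by
  simp [Zk, Submodule.mem_inf, Submodule.mem_iInf]

lemma Zk_succ (K : Submodule ℝ (ι → ℝ)) {m : ℕ} (ρ : Fin (m + 1) → ι → ℤˣ) :
    Zk K ρ = Zk (K ⊓ hyp (ρ 0)) (Fin.tail ρ) := by
  ext x
  rw [mem_Zk, mem_Zk, Submodule.mem_inf, Fin.forall_iff_succ]
  simp only [Fin.tail]
  tauto

open Classical in
/-- The row tuples whose common kernel in `K` is not zero. -/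
noncomputable def badRows (m : ℕ) (K : Submodule ℝ (ι → ℝ)) : Finset (Fin m → ι → ℤˣ) :=
  Finset.univ.filter (fun ρ => Zk K ρ ≠ ⊥)

/-- The partial sum of binomial coefficients. -/
def S (m d : ℕ) : ℕ := ∑ j ∈ Finset.range d, m.choose j

lemma S_succ (m d : ℕ) : S (m + 1) (d + 1) = S m (d + 1) + S m d := by
  induction d with
  | zero => simp [S]
  | succ d ih =>
    have h1 : S (m + 1) (d + 1 + 1) = S (m + 1) (d + 1) + (m + 1).choose (d + 1) :=
      Finset.sum_range_succ _ _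
    have h2 : S m (d + 1 + 1) = S m (d + 1) + m.choose (d + 1) := Finset.sum_range_succ _ _
    have h3 : S m (d + 1) = S m d + m.choose d := Finset.sum_range_succ _ _
    have h4 : (m + 1).choose (d + 1) = m.choose d + m.choose (d + 1) := Nat.choose_succ_succ _ _
    omega

lemma S_mono (m : ℕ) {d e : ℕ} (h : d ≤ e) : S m d ≤ S m e :=
  Finset.sum_le_sum_of_subset (Finset.range_mono h)

lemma unit_cast_ne (u : ℤˣ) : (((u : ℤˣ) : ℤ) : ℝ) ≠ 0 := by
  rcases Int.units_eq_one_or u with h | h <;> simp [h]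

open Classical in
lemma flip_count (K : Submodule ℝ (ι → ℝ)) (hK : K ≠ ⊥) :
    2 * ((Finset.univ : Finset (ι → ℤˣ)).filter (fun r => K ≤ hyp r)).card
      ≤ Fintype.card (ι → ℤˣ) := by
  obtain ⟨x, hxK, hx0⟩ := (Submodule.ne_bot_iff K).mp hK
  obtain ⟨a, ha⟩ := Function.ne_iff.mp hx0
  have ha' : x a ≠ 0 := ha
  set Sg := (Finset.univ : Finset (ι → ℤˣ)).filter (fun r => K ≤ hyp r) with hSg
  let fl : (ι → ℤˣ) → (ι → ℤˣ) := fun r => Function.update r a (-(r a))
  have hfl : ∀ r, fl (fl r) = r := by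
    intro r
    funext b
    by_cases hb : b = a
    · subst hb
      simp [fl]
    · simp [fl, Function.update_of_ne hb]
  have hsum : ∀ r, ∑ b, (((fl r b : ℤˣ) : ℤ) : ℝ) * x b
      = ∑ b, (((r b : ℤˣ) : ℤ) : ℝ) * x b - 2 * (((r a : ℤˣ) : ℤ) : ℝ) * x a := by
    intro r
    rw [← Finset.add_sum_erase Finset.univ _ (Finset.mem_univ a),
      ← Finset.add_sum_erase Finset.univ (fun b => (((r b : ℤˣ) : ℤ) : ℝ) * x b)
        (Finset.mem_univ a)]
    have h1 : ∑ b ∈ Finset.univ.erase a, (((fl r b : ℤˣ) : ℤ) : ℝ) * x b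
        = ∑ b ∈ Finset.univ.erase a, (((r b : ℤˣ) : ℤ) : ℝ) * x b := by
      refine Finset.sum_congr rfl (fun b hb => ?_)
      simp [fl, Function.update_of_ne (Finset.ne_of_mem_erase hb)]
    rw [h1]
    simp [fl]
    ring
  have hle : Sg.card ≤ (Sgᶜ).card := by
    refine Finset.card_le_card_of_injOn fl ?_ ?_
    · intro r hr
      have hr' : K ≤ hyp r := by simpa [hSg] using hr
      rw [Finset.mem_coe, Finset.mem_compl]
      intro hmem
      have hmem' : K ≤ hyp (fl r) := by simpa [hSg] using hmem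
      have h1 : ∑ b, (((r b : ℤˣ) : ℤ) : ℝ) * x b = 0 := mem_hyp.mp (hr' hxK)
      have h2 : ∑ b, (((fl r b : ℤˣ) : ℤ) : ℝ) * x b = 0 := mem_hyp.mp (hmem' hxK)
      rw [hsum r, h1] at h2
      have h3 : 2 * (((r a : ℤˣ) : ℤ) : ℝ) * x a ≠ 0 :=
        mul_ne_zero (mul_ne_zero two_ne_zero (unit_cast_ne _)) ha'
      exact h3 (by linarith)
    · intro r _ r' _ h
      have h' : fl r = fl r' := h
      rw [← hfl r, ← hfl r', h']
  have hcard := Finset.card_add_card_compl Sg
  omega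

/-- The row exposure bound: a tuple of `m` independent uniform sign rows leaves a nonzero common
kernel in `K` with probability at most `2^(-m) ∑_{j < dim K} C(m, j)`. -/
theorem badRows_card (m : ℕ) : ∀ K : Submodule ℝ (ι → ℝ),
    (badRows m K).card * 2 ^ m ≤ Fintype.card (ι → ℤˣ) ^ m * S m (Module.finrank ℝ K) := by
  classical
  induction m with
  | zero =>
    intro K
    by_cases hK : K = ⊥
    · have : badRows 0 K = ∅ := by
        ext ρ
        simp [badRows, Zk, hK]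
      simp [this]
    · have h1 : 1 ≤ Module.finrank ℝ K := Submodule.one_le_finrank_iff.mpr hK
      have h2 : 1 ≤ S 0 (Module.finrank ℝ K) := by
        unfold S
        calc 1 = Nat.choose 0 0 := rfl
          _ ≤ _ := Finset.single_le_sum (f := fun j => Nat.choose 0 j)
              (fun _ _ => Nat.zero_le _) (Finset.mem_range.mpr h1)
      have h3 : (badRows 0 K).card ≤ 1 := by
        calc (badRows 0 K).card ≤ Fintype.card (Fin 0 → ι → ℤˣ) := Finset.card_le_univ _
          _ = 1 := by simp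
      simpa using h3.trans h2
  | succ m ih =>
    intro K
    by_cases hK : K = ⊥
    · have : badRows (m + 1) K = ∅ := by
        ext ρ
        simp [badRows, Zk, hK]
      simp [this]
    have hd : 1 ≤ Module.finrank ℝ K := Submodule.one_le_finrank_iff.mpr hK
    obtain ⟨d, hd'⟩ : ∃ d, Module.finrank ℝ K = d + 1 := ⟨Module.finrank ℝ K - 1, by omega⟩
    set N := Fintype.card (ι → ℤˣ) with hN
    have hinj : (badRows (m + 1) K).card ≤ ∑ r : ι → ℤˣ, (badRows m (K ⊓ hyp r)).card := by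
      rw [← Finset.card_sigma]
      refine Finset.card_le_card_of_injOn (fun ρ => ⟨ρ 0, Fin.tail ρ⟩) ?_ ?_
      · intro ρ hρ
        have h0 : Zk K ρ ≠ ⊥ := by simpa [badRows] using hρ
        rw [Zk_succ] at h0
        simp only [Finset.coe_sigma, Set.mem_sigma_iff, Finset.coe_univ, Set.mem_univ, true_and,
          Finset.mem_coe]
        simpa [badRows] using h0
      · intro ρ _ ρ' _ h
        simp only [Sigma.mk.inj_iff, heq_eq_eq] at h
        rw [← Fin.cons_self_tail ρ, ← Fin.cons_self_tail ρ', h.1, h.2]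
    set a := ((Finset.univ : Finset (ι → ℤˣ)).filter (fun r => K ≤ hyp r)).card with ha
    set b := ((Finset.univ : Finset (ι → ℤˣ)).filter (fun r => ¬ K ≤ hyp r)).card with hb
    have hab : a + b = N := by
      rw [ha, hb, Finset.card_filter_add_card_filter_not, Finset.card_univ]
    have h2a : 2 * a ≤ N := flip_count K hK
    have hr : ∀ r, (badRows m (K ⊓ hyp r)).card * 2 ^ m
        ≤ N ^ m * (if K ≤ hyp r then S m (d + 1) else S m d) := by
      intro r
      refine (ih _).trans (Nat.mul_le_mul_left _ ?_)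
      split_ifs with hle
      · rw [inf_eq_left.mpr hle, hd']
      · have hlt : K ⊓ hyp r < K :=
          lt_of_le_of_ne inf_le_left (fun h => hle (inf_eq_left.mp h))
        have := Submodule.finrank_lt_finrank_of_lt hlt
        exact S_mono m (by omega)
    have hsum : (∑ r : ι → ℤˣ, (badRows m (K ⊓ hyp r)).card) * 2 ^ m
        ≤ N ^ m * (a * S m (d + 1) + b * S m d) := by
      rw [Finset.sum_mul]
      calc ∑ r : ι → ℤˣ, (badRows m (K ⊓ hyp r)).card * 2 ^ m
          ≤ ∑ r : ι → ℤˣ, N ^ m * (if K ≤ hyp r then S m (d + 1) else S m d) :=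
            Finset.sum_le_sum (fun r _ => hr r)
        _ = N ^ m * (a * S m (d + 1) + b * S m d) := by
            rw [← Finset.mul_sum, Finset.sum_ite, Finset.sum_const, Finset.sum_const,
              smul_eq_mul, smul_eq_mul]
    have hS : S m d ≤ S m (d + 1) := S_mono m (Nat.le_succ d)
    obtain ⟨e, he⟩ := Nat.exists_eq_add_of_le hS
    have harith : 2 * (a * S m (d + 1) + b * S m d) ≤ N * (S m (d + 1) + S m d) := by
      rw [he, ← hab]
      have h2a' : 2 * a ≤ a + b := by omega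
      have := Nat.mul_le_mul_right e h2a'
      nlinarith
    rw [hd', S_succ]
    calc (badRows (m + 1) K).card * 2 ^ (m + 1)
        = (badRows (m + 1) K).card * 2 ^ m * 2 := by rw [pow_succ]; ring
      _ ≤ (∑ r : ι → ℤˣ, (badRows m (K ⊓ hyp r)).card) * 2 ^ m * 2 :=
          Nat.mul_le_mul_right _ (Nat.mul_le_mul_right _ hinj)
      _ ≤ N ^ m * (a * S m (d + 1) + b * S m d) * 2 := Nat.mul_le_mul_right _ hsum
      _ = N ^ m * (2 * (a * S m (d + 1) + b * S m d)) := by ring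
      _ ≤ N ^ m * (N * (S m (d + 1) + S m d)) := Nat.mul_le_mul_left _ harith
      _ = N ^ (m + 1) * (S m (d + 1) + S m d) := by rw [pow_succ]; ring

end Rows

variable {n : ℕ}

open Classical in
/-- The sign choices whose matrix has a nonzero real kernel vector supported on `T`, tested only on
the rows outside `T`. -/
noncomputable def GT (T : Finset (Fin n)) : Finset (Sym2 (Fin n) → ℤˣ) :=
  Finset.univ.filter (fun f => ∃ x : Fin n → ℝ, x ≠ 0 ∧ (∀ a, a ∉ T → x a = 0) ∧
    ∀ r, r ∉ T → ∑ a ∈ T, (((f s(r, a) : ℤˣ) : ℤ) : ℝ) * x a = 0)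

lemma GT_card (T : Finset (Fin n)) :
    (GT T).card * 2 ^ (n - T.card) ≤ S (n - T.card) T.card * 2 ^ Fintype.card (Sym2 (Fin n)) := by
  classical
  have hm : Fintype.card {r // r ∉ T} + T.card = n := by
    have := card_off_add T
    simpa using this
  set m := Fintype.card {r // r ∉ T} with hmdef
  have hnm : n - T.card = m := by omega
  rw [hnm]
  set t := T.card with ht
  set Q := 2 ^ Fintype.card (Sym2 (Fin n)) with hQ
  let e : {r // r ∉ T} ≃ Fin m := Fintype.equivFin _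
  let Φ : (Sym2 (Fin n) → ℤˣ) → (Fin m → (↥T) → ℤˣ) := fun f i a => f s((e.symm i).1, a.1)
  -- the rows of a member of `GT T` are bad
  have hmaps : ∀ f ∈ GT T, Φ f ∈ badRows m (⊤ : Submodule ℝ ((↥T) → ℝ)) := by
    intro f hf
    obtain ⟨x, hx0, hxoff, hxr⟩ : ∃ x : Fin n → ℝ, x ≠ 0 ∧ (∀ a, a ∉ T → x a = 0) ∧
        ∀ r, r ∉ T → ∑ a ∈ T, (((f s(r, a) : ℤˣ) : ℤ) : ℝ) * x a = 0 := by
      simpa [GT] using hf
    have hne : (fun a : ↥T => x a.1) ≠ 0 := by
      intro h
      apply hx0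
      funext a
      by_cases ha : a ∈ T
      · exact congrFun h ⟨a, ha⟩
      · exact hxoff a ha
    have hZ : Zk (⊤ : Submodule ℝ ((↥T) → ℝ)) (Φ f) ≠ ⊥ := by
      rw [Submodule.ne_bot_iff]
      refine ⟨fun a : ↥T => x a.1, mem_Zk.mpr ⟨Submodule.mem_top, fun i => ?_⟩, hne⟩
      rw [mem_hyp]
      exact (Finset.sum_coe_sort T (fun a => (((f s((e.symm i).1, a) : ℤˣ) : ℤ) : ℝ) * x a)).trans
        (hxr _ (e.symm i).2)
    simpa [badRows] using hZ
  -- the fibre bound
  let emb : Fin m × (↥T) → Sym2 (Fin n) := fun p => s((e.symm p.1).1, p.2.1)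
  have hemb : Function.Injective emb := by
    rintro ⟨i, a⟩ ⟨i', a'⟩ h
    rcases Sym2.eq_iff.mp h with ⟨h1, h2⟩ | ⟨h1, _⟩
    · have h3 : e.symm i = e.symm i' := Subtype.ext h1
      have h4 : i = i' := e.symm.injective h3
      have h5 : a = a' := Subtype.ext h2
      rw [h4, h5]
    · exact absurd (h1 ▸ a'.2) (e.symm i).2
  set D : Finset (Sym2 (Fin n)) := Finset.univ.image emb with hD
  have hDcard : D.card = m * t := by
    rw [hD, Finset.card_image_of_injective _ hemb, Finset.card_univ, Fintype.card_prod,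
      Fintype.card_fin, Fintype.card_coe]
  have hfib : ∀ ρ : Fin m → (↥T) → ℤˣ,
      ((GT T).filter (fun f => Φ f = ρ)).card * 2 ^ (m * t) ≤ Q := by
    intro ρ
    have h := card_mul_pow_le ((GT T).filter (fun f => Φ f = ρ)) D (by
      intro f hf g hg hfg
      have hf' := (Finset.mem_filter.mp hf).2
      have hg' := (Finset.mem_filter.mp hg).2
      funext x
      by_cases hx : x ∈ D
      · obtain ⟨p, _, rfl⟩ := Finset.mem_image.mp hx
        have : Φ f p.1 p.2 = Φ g p.1 p.2 := by rw [hf', hg']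
        exact this
      · exact hfg x hx)
    rwa [Fintype.card_units_int, hDcard] at h
  have hcard1 : (GT T).card * 2 ^ (m * t)
      ≤ (badRows m (⊤ : Submodule ℝ ((↥T) → ℝ))).card * Q := by
    rw [Finset.card_eq_sum_card_image Φ (GT T), Finset.sum_mul]
    calc ∑ ρ ∈ (GT T).image Φ, ((GT T).filter (fun f => Φ f = ρ)).card * 2 ^ (m * t)
        ≤ ∑ _ρ ∈ (GT T).image Φ, Q := Finset.sum_le_sum (fun ρ _ => hfib ρ)
      _ = ((GT T).image Φ).card * Q := by rw [Finset.sum_const, smul_eq_mul]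
      _ ≤ (badRows m (⊤ : Submodule ℝ ((↥T) → ℝ))).card * Q := by
          refine Nat.mul_le_mul_right _ (Finset.card_le_card ?_)
          intro ρ hρ
          obtain ⟨f, hf, rfl⟩ := Finset.mem_image.mp hρ
          exact hmaps f hf
  have hbad := badRows_card (ι := ↥T) m ⊤
  have hN : Fintype.card ((↥T) → ℤˣ) = 2 ^ t := by
    rw [Fintype.card_fun, Fintype.card_units_int, Fintype.card_coe]
  have hrank : Module.finrank ℝ (⊤ : Submodule ℝ ((↥T) → ℝ)) = t := by
    rw [finrank_top, Module.finrank_fintype_fun_eq_card, Fintype.card_coe]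
  rw [hN, hrank, ← pow_mul, mul_comm t m] at hbad
  have hpos : 0 < 2 ^ (m * t) := by positivity
  refine Nat.le_of_mul_le_mul_left ?_ hpos
  calc 2 ^ (m * t) * ((GT T).card * 2 ^ m)
      = ((GT T).card * 2 ^ (m * t)) * 2 ^ m := by ring
    _ ≤ ((badRows m (⊤ : Submodule ℝ ((↥T) → ℝ))).card * Q) * 2 ^ m :=
        Nat.mul_le_mul_right _ hcard1
    _ = ((badRows m (⊤ : Submodule ℝ ((↥T) → ℝ))).card * 2 ^ m) * Q := by ring
    _ ≤ (2 ^ (m * t) * S m t) * Q := Nat.mul_le_mul_right _ hbad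
    _ = 2 ^ (m * t) * (S m t * Q) := by ring

/-- The number of subsets of an `n`-set of size at most `k`. -/
def Vol (n k : ℕ) : ℕ := ∑ j ∈ Finset.range (k + 1), n.choose j

open Classical in
/-- The sign choices whose matrix has a nonzero real kernel vector with at most `k` nonzero
coordinates. -/
noncomputable def sparseSet (n k : ℕ) : Finset (Sym2 (Fin n) → ℤˣ) :=
  Finset.univ.filter (fun f => ∃ x : Fin n → ℝ, x ≠ 0 ∧
    (Finset.univ.filter (fun i => x i ≠ 0)).card ≤ k ∧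
    ((symSign f).map (Int.cast : ℤ → ℝ)).mulVec x = 0)

/-- The probability that the kernel holds a nonzero real vector with at most `k` nonzero
coordinates. -/
noncomputable def sparseProb (n k : ℕ) : ℝ :=
  ((sparseSet n k).card : ℝ) / (Fintype.card (Sym2 (Fin n) → ℤˣ) : ℝ)

lemma GT_card' {T : Finset (Fin n)} {k : ℕ} (hT : T.card ≤ k) :
    (GT T).card * 2 ^ n ≤ Vol n k * 2 ^ k * 2 ^ Fintype.card (Sym2 (Fin n)) := by
  have htn : T.card ≤ n := by
    simpa using Finset.card_le_univ T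
  have h := GT_card T
  have h1 : S (n - T.card) T.card ≤ Vol n k := by
    unfold S Vol
    calc ∑ j ∈ Finset.range T.card, (n - T.card).choose j
        ≤ ∑ j ∈ Finset.range T.card, n.choose j :=
          Finset.sum_le_sum (fun j _ => Nat.choose_le_choose j (Nat.sub_le _ _))
      _ ≤ ∑ j ∈ Finset.range (k + 1), n.choose j :=
          Finset.sum_le_sum_of_subset (Finset.range_mono (by omega))
  have h2 : (2 : ℕ) ^ T.card ≤ 2 ^ k := Nat.pow_le_pow_right (by norm_num) hT
  have h3 : (2 : ℕ) ^ n = 2 ^ (n - T.card) * 2 ^ T.card := by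
    rw [← pow_add]; congr 1; omega
  rw [h3]
  calc (GT T).card * (2 ^ (n - T.card) * 2 ^ T.card)
      = ((GT T).card * 2 ^ (n - T.card)) * 2 ^ T.card := by ring
    _ ≤ (S (n - T.card) T.card * 2 ^ Fintype.card (Sym2 (Fin n))) * 2 ^ k :=
        Nat.mul_le_mul h h2
    _ ≤ (Vol n k * 2 ^ Fintype.card (Sym2 (Fin n))) * 2 ^ k :=
        Nat.mul_le_mul_right _ (Nat.mul_le_mul_right _ h1)
    _ = Vol n k * 2 ^ k * 2 ^ Fintype.card (Sym2 (Fin n)) := by ring

lemma sparse_card (n k : ℕ) :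
    (sparseSet n k).card * 2 ^ n ≤ Vol n k ^ 2 * 2 ^ k * 2 ^ Fintype.card (Sym2 (Fin n)) := by
  classical
  set 𝒯 : Finset (Finset (Fin n)) := Finset.univ.filter (fun T => T.card ≤ k) with h𝒯
  have hsub : sparseSet n k ⊆ 𝒯.biUnion GT := by
    intro f hf
    obtain ⟨x, hx0, hxcard, hxker⟩ : ∃ x : Fin n → ℝ, x ≠ 0 ∧
        (Finset.univ.filter (fun i => x i ≠ 0)).card ≤ k ∧
        ((symSign f).map (Int.cast : ℤ → ℝ)).mulVec x = 0 := by
      simpa [sparseSet] using hf
    refine Finset.mem_biUnion.mpr ⟨Finset.univ.filter (fun i => x i ≠ 0), ?_, ?_⟩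
    · simpa [h𝒯] using hxcard
    · have hmem : f ∈ GT (Finset.univ.filter (fun i => x i ≠ 0)) := by
        simp only [GT, Finset.mem_filter, Finset.mem_univ, true_and]
        refine ⟨x, hx0, ?_, ?_⟩
        · intro a ha
          by_contra h
          exact ha (by simpa using h)
        · intro r _
          have h1 := congrFun hxker r
          simp only [Matrix.mulVec, dotProduct, Matrix.map_apply, symSign, Pi.zero_apply] at h1
          refine Eq.trans (Finset.sum_subset (Finset.subset_univ _) (fun a _ ha => ?_)) h1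
          have : x a = 0 := by
            by_contra h
            exact ha (by simpa using h)
          rw [this, mul_zero]
      exact hmem
  have h𝒯card : 𝒯.card ≤ Vol n k := by
    have hsub2 : 𝒯 ⊆ (Finset.range (k + 1)).biUnion
        (fun j => Finset.powersetCard j (Finset.univ : Finset (Fin n))) := by
      intro T hT
      have hT' : T.card ≤ k := by simpa [h𝒯] using hT
      exact Finset.mem_biUnion.mpr ⟨T.card, Finset.mem_range.mpr (by omega),
        Finset.mem_powersetCard.mpr ⟨Finset.subset_univ _, rfl⟩⟩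
    calc 𝒯.card ≤ _ := Finset.card_le_card hsub2
      _ ≤ ∑ j ∈ Finset.range (k + 1),
          (Finset.powersetCard j (Finset.univ : Finset (Fin n))).card := Finset.card_biUnion_le
      _ = Vol n k := by
          unfold Vol
          refine Finset.sum_congr rfl (fun j _ => ?_)
          rw [Finset.card_powersetCard, Finset.card_univ, Fintype.card_fin]
  calc (sparseSet n k).card * 2 ^ n
      ≤ (𝒯.biUnion GT).card * 2 ^ n := Nat.mul_le_mul_right _ (Finset.card_le_card hsub)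
    _ ≤ (∑ T ∈ 𝒯, (GT T).card) * 2 ^ n := Nat.mul_le_mul_right _ Finset.card_biUnion_le
    _ = ∑ T ∈ 𝒯, (GT T).card * 2 ^ n := by rw [Finset.sum_mul]
    _ ≤ ∑ _T ∈ 𝒯, Vol n k * 2 ^ k * 2 ^ Fintype.card (Sym2 (Fin n)) := by
        refine Finset.sum_le_sum (fun T hT => GT_card' ?_)
        simpa [h𝒯] using hT
    _ = 𝒯.card * (Vol n k * 2 ^ k * 2 ^ Fintype.card (Sym2 (Fin n))) := by
        rw [Finset.sum_const, smul_eq_mul]
    _ ≤ Vol n k * (Vol n k * 2 ^ k * 2 ^ Fintype.card (Sym2 (Fin n))) :=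
        Nat.mul_le_mul_right _ h𝒯card
    _ = Vol n k ^ 2 * 2 ^ k * 2 ^ Fintype.card (Sym2 (Fin n)) := by ring

lemma card_all (n : ℕ) :
    (Fintype.card (Sym2 (Fin n) → ℤˣ) : ℝ) = ((2 ^ Fintype.card (Sym2 (Fin n)) : ℕ) : ℝ) := by
  rw [Fintype.card_fun, Fintype.card_units_int]

/-- The explicit bound on the sparse kernel event. -/
theorem sparseProb_le (n k : ℕ) :
    sparseProb n k ≤ (Vol n k : ℝ) ^ 2 * 2 ^ k / 2 ^ n := by
  have h := sparse_card n k
  have hQ : (0 : ℝ) < ((2 ^ Fintype.card (Sym2 (Fin n)) : ℕ) : ℝ) := by positivity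
  unfold sparseProb
  rw [card_all, div_le_div_iff₀ hQ (by positivity)]
  have h' : ((sparseSet n k).card : ℝ) * 2 ^ n
      ≤ (Vol n k : ℝ) ^ 2 * 2 ^ k * ((2 ^ Fintype.card (Sym2 (Fin n)) : ℕ) : ℝ) := by
    exact_mod_cast h
  exact h'

lemma Vol_mul_pow_le {n k : ℕ} (hk : k ≤ n) {x : ℝ} (hx0 : 0 < x) (hx1 : x ≤ 1) :
    (Vol n k : ℝ) * x ^ k ≤ (1 + x) ^ n := by
  unfold Vol
  rw [Nat.cast_sum, Finset.sum_mul, add_comm (1 : ℝ) x, add_pow]
  calc ∑ j ∈ Finset.range (k + 1), ((n.choose j : ℕ) : ℝ) * x ^ k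
      ≤ ∑ j ∈ Finset.range (k + 1), x ^ j * 1 ^ (n - j) * ((n.choose j : ℕ) : ℝ) := by
        refine Finset.sum_le_sum (fun j hj => ?_)
        have hjk : j ≤ k := Nat.lt_succ_iff.mp (Finset.mem_range.mp hj)
        have h1 : x ^ k ≤ x ^ j := pow_le_pow_of_le_one hx0.le hx1 hjk
        have h2 : (0 : ℝ) ≤ ((n.choose j : ℕ) : ℝ) := Nat.cast_nonneg _
        rw [one_pow, mul_one, mul_comm]
        exact mul_le_mul_of_nonneg_right h1 h2
    _ ≤ ∑ j ∈ Finset.range (n + 1), x ^ j * 1 ^ (n - j) * ((n.choose j : ℕ) : ℝ) := by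
        refine Finset.sum_le_sum_of_subset_of_nonneg (Finset.range_mono (by omega)) ?_
        intro j _ _
        positivity

/-- The rate: for every `ε > 0` there is `L` such that the kernel holds a nonzero vector with at
most `n / L` nonzero coordinates with probability at most `(1/2 + ε)^n`, for every `n`. -/
theorem sparse_rate (ε : ℝ) (hε : 0 < ε) :
    ∃ L : ℕ, 0 < L ∧ ∀ n : ℕ, sparseProb n (n / L) ≤ (1 / 2 + ε) ^ n := by
  set η : ℝ := min (ε / 2) 1 with hη
  have hη0 : 0 < η := lt_min (by positivity) one_pos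
  have hη1 : η ≤ 1 := min_le_right _ _
  have hηε : η ≤ ε / 2 := min_le_left _ _
  set x : ℝ := η / 3 with hx
  have hx0 : 0 < x := by positivity
  have hx1 : x ≤ 1 := by rw [hx]; linarith
  set w : ℝ := 1 + η with hw
  have hw1 : 1 < w := by rw [hw]; linarith
  have hxw : (1 + x) ^ 2 ≤ w := by
    rw [hw, hx]; nlinarith
  have hww : w ^ 2 ≤ 1 + 2 * ε := by
    rw [hw]; nlinarith
  obtain ⟨L0, hL0⟩ := pow_unbounded_of_one_lt (2 / x ^ 2) hw1
  refine ⟨L0 + 1, Nat.succ_pos _, fun n => ?_⟩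
  set L := L0 + 1 with hL
  set k := n / L with hk
  have hkn : k ≤ n := Nat.div_le_self _ _
  have hLk : L * k ≤ n := Nat.mul_div_le _ _
  refine (sparseProb_le n k).trans ?_
  have h1 := Vol_mul_pow_le hkn hx0 hx1
  have hV0 : (0 : ℝ) ≤ (Vol n k : ℝ) := Nat.cast_nonneg _
  have hxk : (0 : ℝ) < x ^ k := by positivity
  have h2 : (Vol n k : ℝ) ^ 2 * (x ^ k) ^ 2 ≤ ((1 + x) ^ n) ^ 2 := by
    rw [← mul_pow]
    exact pow_le_pow_left₀ (by positivity) h1 2
  have hy : 2 / x ^ 2 ≤ w ^ L := by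
    have : w ^ L0 ≤ w ^ L := pow_le_pow_right₀ hw1.le (by omega)
    exact hL0.le.trans this
  have hy2 : (2 / x ^ 2) ^ k ≤ w ^ n := by
    calc (2 / x ^ 2) ^ k ≤ (w ^ L) ^ k := pow_le_pow_left₀ (by positivity) hy k
      _ = w ^ (L * k) := by rw [pow_mul]
      _ ≤ w ^ n := pow_le_pow_right₀ hw1.le hLk
  have h3 : (Vol n k : ℝ) ^ 2 * 2 ^ k ≤ (1 + 2 * ε) ^ n := by
    have h4 : (2 : ℝ) ^ k = (2 / x ^ 2) ^ k * (x ^ k) ^ 2 := by
      have h41 : (x ^ k) ^ 2 = (x ^ 2) ^ k := by rw [← pow_mul, ← pow_mul, mul_comm]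
      rw [h41, ← mul_pow]
      congr 1
      field_simp
    have h5 : ((1 + x) ^ n) ^ 2 ≤ w ^ n := by
      rw [← pow_mul, mul_comm n 2, pow_mul]
      exact pow_le_pow_left₀ (by positivity) hxw n
    calc (Vol n k : ℝ) ^ 2 * 2 ^ k
        = ((Vol n k : ℝ) ^ 2 * (x ^ k) ^ 2) * (2 / x ^ 2) ^ k := by rw [h4]; ring
      _ ≤ ((1 + x) ^ n) ^ 2 * (2 / x ^ 2) ^ k :=
          mul_le_mul_of_nonneg_right h2 (by positivity)
      _ ≤ w ^ n * w ^ n :=
          mul_le_mul h5 hy2 (by positivity) (by positivity)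
      _ = (w ^ 2) ^ n := by rw [← mul_pow, sq]
      _ ≤ (1 + 2 * ε) ^ n := pow_le_pow_left₀ (by positivity) hww n
  have h6 : (1 / 2 + ε) ^ n = (1 + 2 * ε) ^ n / 2 ^ n := by
    rw [← div_pow]; congr 1; ring
  rw [h6]
  exact div_le_div_of_nonneg_right h3 (by positivity)

/-- Members of `sparseSet` are singular. -/
theorem sparseProb_le_singProb (n k : ℕ) : sparseProb n k ≤ singProb n := by
  classical
  unfold sparseProb singProb
  refine div_le_div_of_nonneg_right ?_ (Nat.cast_nonneg _)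
  have : (sparseSet n k).card
      ≤ ((Finset.univ : Finset (Sym2 (Fin n) → ℤˣ)).filter (fun f => (symSign f).det = 0)).card := by
    refine Finset.card_le_card (fun f hf => ?_)
    obtain ⟨x, hx0, _, hxker⟩ : ∃ x : Fin n → ℝ, x ≠ 0 ∧
        (Finset.univ.filter (fun i => x i ≠ 0)).card ≤ k ∧
        ((symSign f).map (Int.cast : ℤ → ℝ)).mulVec x = 0 := by
      simpa [sparseSet] using hf
    simp only [Finset.mem_filter, Finset.mem_univ, true_and]
    have hdet : ((symSign f).map (Int.cast : ℤ → ℝ)).det = 0 :=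
      Matrix.exists_mulVec_eq_zero_iff.mp ⟨x, hx0, hxker⟩
    have h2 := (Int.castRingHom ℝ).map_det (symSign f)
    have h3 : (Int.castRingHom ℝ).mapMatrix (symSign f)
        = (symSign f).map (Int.cast : ℤ → ℝ) := rfl
    rw [h3, hdet] at h2
    simpa using h2
  exact_mod_cast this

lemma rowEv_subset_sparse {i j : Fin n} (hij : i ≠ j) (s : ℤˣ) {k : ℕ} (hk : 2 ≤ k) :
    rowEv i j s ⊆ sparseSet n k := by
  classical
  intro f hf
  have hf' : ∀ m, f s(i, m) = s * f s(j, m) := by simpa [rowEv] using hf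
  simp only [sparseSet, Finset.mem_filter, Finset.mem_univ, true_and]
  let v : Fin n → ℝ := Pi.single i 1 - (((s : ℤˣ) : ℤ) : ℝ) • Pi.single j 1
  refine ⟨v, ?_, ?_, ?_⟩
  · intro h
    have := congrFun h i
    simp [v, hij] at this
  · have hsub : Finset.univ.filter (fun a => v a ≠ 0) ⊆ {i, j} := by
      intro a ha
      have ha' := (Finset.mem_filter.mp ha).2
      by_contra hcon
      simp only [Finset.mem_insert, Finset.mem_singleton, not_or] at hcon
      apply ha'
      simp [v, Pi.single_apply, hcon.1, hcon.2]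
    exact (Finset.card_le_card hsub).trans (Finset.card_le_two.trans hk)
  · ext r
    show (((symSign f).map (Int.cast : ℤ → ℝ)).mulVec
      (Pi.single i 1 - (((s : ℤˣ) : ℤ) : ℝ) • Pi.single j 1)) r = 0
    have h1 : ((f s(r, i) : ℤˣ) : ℤ) = (s : ℤ) * (f s(r, j) : ℤˣ) := by
      rw [Sym2.eq_swap, hf' r, Units.val_mul, Sym2.eq_swap]
    have h2 : (((f s(r, i) : ℤˣ) : ℤ) : ℝ) = ((s : ℤ) : ℝ) * ((f s(r, j) : ℤˣ) : ℤ) := by
      exact_mod_cast h1
    rw [Matrix.mulVec_sub, Matrix.mulVec_smul, Matrix.mulVec_single_one, Matrix.mulVec_single_one]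
    simp only [Pi.sub_apply, Pi.smul_apply, Matrix.col_apply, Pi.zero_apply, smul_eq_mul,
      Matrix.map_apply, symSign]
    rw [h2, sub_self]

/-- The same Bonferroni bound for the sparse event. -/
theorem sparseProb_ge (n k : ℕ) (hk : 2 ≤ k) :
    ((n : ℝ) * (n - 1)) / 2 ^ n - 256 * (n : ℝ) ^ 4 / 4 ^ n ≤ sparseProb n k := by
  classical
  set I : Finset (Fin n × Fin n) := (Finset.univ : Finset (Fin n)).offDiag with hI
  have hIcard : I.card = n * n - n := by
    rw [hI, Finset.offDiag_card]; simp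
  have hImem : ∀ e ∈ I, e.1 ≠ e.2 := by
    intro e he
    exact (Finset.mem_offDiag.mp he).2.2
  let E : Fin n × Fin n → Finset (Sym2 (Fin n) → ℤˣ) := fun e => rowEv e.1 e.2 (sgn e.1 e.2)
  have hb := bonf I E
  set N : ℕ := 2 ^ Fintype.card (Sym2 (Fin n)) with hN
  set Sing : Finset (Sym2 (Fin n) → ℤˣ) := sparseSet n k with hSing
  have hU : (I.biUnion E).card ≤ Sing.card := by
    refine Finset.card_le_card (fun f hf => ?_)
    obtain ⟨e, he, hfe⟩ := Finset.mem_biUnion.mp hf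
    exact rowEv_subset_sparse (hImem e he) _ hk hfe
  have hNpos : (0 : ℝ) < (N : ℝ) := by
    rw [hN]; positivity
  have hcard : (Fintype.card (Sym2 (Fin n) → ℤˣ) : ℝ) = (N : ℝ) := by
    rw [Fintype.card_fun, Fintype.card_units_int]
  have hsum1 : ((I.card : ℝ)) * ((N : ℝ) / 2 ^ n) ≤ ∑ e ∈ I, ((E e).card : ℝ) := by
    rw [← nsmul_eq_mul]
    refine Finset.card_nsmul_le_sum _ _ _ (fun e he => ?_)
    have h := rowEv_card_ge (hImem e he) (sgn e.1 e.2)
    rw [div_le_iff₀ (by positivity)]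
    have h' : (N : ℝ) ≤ 2 ^ n * ((E e).card : ℝ) := by exact_mod_cast h
    linarith
  have hsum2 : ∑ e ∈ I, ∑ e' ∈ I.erase e, ((E e ∩ E e').card : ℝ)
      ≤ (I.card : ℝ) * ((I.card : ℝ) * (256 * (N : ℝ) / 4 ^ n)) := by
    have hin : ∀ e ∈ I, ∑ e' ∈ I.erase e, ((E e ∩ E e').card : ℝ)
        ≤ (I.card : ℝ) * (256 * (N : ℝ) / 4 ^ n) := by
      intro e he
      have h1 : ∑ e' ∈ I.erase e, ((E e ∩ E e').card : ℝ)
          ≤ ((I.erase e).card : ℝ) * (256 * (N : ℝ) / 4 ^ n) := by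
        rw [← nsmul_eq_mul]
        refine Finset.sum_le_card_nsmul _ _ _ (fun e' he' => ?_)
        have hne : e' ≠ e := (Finset.mem_erase.mp he').1
        have h' := inter_card_le (hImem e he) (hImem e' (Finset.mem_of_mem_erase he')) hne
        rw [le_div_iff₀ (by positivity)]
        exact_mod_cast h'
      have h2 : ((I.erase e).card : ℝ) ≤ (I.card : ℝ) := by
        exact_mod_cast Finset.card_erase_le
      have h3 : (0 : ℝ) ≤ 256 * (N : ℝ) / 4 ^ n := by positivity
      exact h1.trans (mul_le_mul_of_nonneg_right h2 h3)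
    calc ∑ e ∈ I, ∑ e' ∈ I.erase e, ((E e ∩ E e').card : ℝ)
        ≤ ∑ _e ∈ I, (I.card : ℝ) * (256 * (N : ℝ) / 4 ^ n) := Finset.sum_le_sum hin
      _ = _ := by rw [Finset.sum_const, nsmul_eq_mul]
  have hbR : ∑ e ∈ I, ((E e).card : ℝ) ≤ (Sing.card : ℝ)
      + ∑ e ∈ I, ∑ e' ∈ I.erase e, ((E e ∩ E e').card : ℝ) := by
    have h : ∑ e ∈ I, (E e).card ≤ Sing.card + ∑ e ∈ I, ∑ e' ∈ I.erase e, (E e ∩ E e').card := by
      omega
    exact_mod_cast h
  have hIR : (I.card : ℝ) = (n : ℝ) * (n - 1) := by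
    rw [hIcard]
    have hle : n ≤ n * n := Nat.le_mul_self n
    rw [Nat.cast_sub hle]
    push_cast
    ring
  have hIle : (I.card : ℝ) * (I.card : ℝ) ≤ (n : ℝ) ^ 4 := by
    rw [hIR]
    have hn0 : (0 : ℝ) ≤ n := Nat.cast_nonneg n
    rcases Nat.eq_zero_or_pos n with h0 | h0
    · subst h0; simp
    · have hn1 : (1 : ℝ) ≤ n := by exact_mod_cast h0
      have : (n : ℝ) - 1 ≤ n := by linarith
      have h01 : (0 : ℝ) ≤ (n : ℝ) - 1 := by linarith
      nlinarith [mul_le_mul this this h01 hn0, sq_nonneg (n : ℝ)]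
  have hfinal : (I.card : ℝ) * ((N : ℝ) / 2 ^ n) - (n : ℝ) ^ 4 * (256 * (N : ℝ) / 4 ^ n)
      ≤ (Sing.card : ℝ) := by
    have h3 : (0 : ℝ) ≤ 256 * (N : ℝ) / 4 ^ n := by positivity
    have h4 : (I.card : ℝ) * ((I.card : ℝ) * (256 * (N : ℝ) / 4 ^ n))
        ≤ (n : ℝ) ^ 4 * (256 * (N : ℝ) / 4 ^ n) := by
      rw [← mul_assoc]
      exact mul_le_mul_of_nonneg_right hIle h3
    linarith
  unfold sparseProb
  rw [hcard, le_div_iff₀ hNpos]
  rw [hIR] at hfinal
  calc (((n : ℝ) * (n - 1)) / 2 ^ n - 256 * (n : ℝ) ^ 4 / 4 ^ n) * (N : ℝ)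
      = (n : ℝ) * (n - 1) * ((N : ℝ) / 2 ^ n) - (n : ℝ) ^ 4 * (256 * (N : ℝ) / 4 ^ n) := by ring
    _ ≤ _ := hfinal

/-- The sparse part of the singularity event has exponential rate exactly `1/2`. -/
theorem result :
    (∀ n k : ℕ, sparseProb n k ≤ singProb n) ∧
    (∀ n k : ℕ, sparseProb n k ≤ (Vol n k : ℝ) ^ 2 * 2 ^ k / 2 ^ n) ∧
    (∀ ε : ℝ, 0 < ε → ∃ L : ℕ, 0 < L ∧ ∀ n : ℕ, sparseProb n (n / L) ≤ (1 / 2 + ε) ^ n) ∧
    (∀ n k : ℕ, 2 ≤ k →
      ((n : ℝ) * (n - 1)) / 2 ^ n - 256 * (n : ℝ) ^ 4 / 4 ^ n ≤ sparseProb n k) :=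
  ⟨sparseProb_le_singProb, sparseProb_le, sparse_rate, sparseProb_ge⟩

end Vale.Agent.Results.P160.A0_sparse
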