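import Mathlib

/-!
The singularity probability of a symmetric random sign matrix is at least `(1 - o(1)) n^2 2^(-n)`.

The `n (n - 1)` events row `i` equals `± ` row `j` each have probability exactly at least `2^(-n)`;
two different ones meet with probability at most `256 * 4^(-n)`. Then Bonferroni.
-/

open Finset Filter Topology

namespace Vale.Agent.Results.P160.A_polyfactor

/-- The symmetric sign matrix whose entries on and above the diagonal are the values of `f`. -/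
def symSign {n : ℕ} (f : Sym2 (Fin n) → ℤˣ) : Matrix (Fin n) (Fin n) ℤ :=
  fun i j => ((f s(i, j) : ℤˣ) : ℤ)

/-- `q_n`: the proportion, among all sign choices on and above the diagonal, of singular matrices. -/
noncomputable def singProb (n : ℕ) : ℝ :=
  (((Finset.univ : Finset (Sym2 (Fin n) → ℤˣ)).filter (fun f => (symSign f).det = 0)).card : ℝ) /
    (Fintype.card (Sym2 (Fin n) → ℤˣ) : ℝ)

lemma card_off_add {T : Type*} [Fintype T] [DecidableEq T] (D : Finset T) :
    Fintype.card {x // x ∉ D} + D.card = Fintype.card T := by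
  rw [Fintype.card_subtype, Finset.filter_not, Finset.filter_mem_eq_inter, Finset.univ_inter]
  rw [Finset.card_sdiff_add_card_eq_card (Finset.subset_univ D)]
  rfl

lemma card_mul_pow_le {T α : Type*} [Fintype T] [DecidableEq T] [Fintype α] [DecidableEq α]
    (S : Finset (T → α)) (D : Finset T)
    (h : ∀ f ∈ S, ∀ g ∈ S, (∀ x, x ∉ D → f x = g x) → f = g) :
    S.card * Fintype.card α ^ D.card ≤ Fintype.card α ^ Fintype.card T := by
  have h1 : S.card ≤ Fintype.card ({x // x ∉ D} → α) := by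
    rw [← Finset.card_univ]
    refine Finset.card_le_card_of_injOn (fun f x => f x.1) (fun _ _ => Finset.mem_univ _) ?_
    intro f hf g hg hfg
    refine h f hf g hg (fun x hx => ?_)
    exact congrFun hfg ⟨x, hx⟩
  rw [Fintype.card_fun] at h1
  rw [← card_off_add D, pow_add]
  exact Nat.mul_le_mul_right _ h1

lemma bonf {ι β : Type*} [DecidableEq ι] [DecidableEq β] (I : Finset ι) (E : ι → Finset β) :
    ∑ e ∈ I, (E e).card ≤ (I.biUnion E).card + ∑ e ∈ I, ∑ e' ∈ I.erase e, (E e ∩ E e').card := by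
  induction I using Finset.induction_on with
  | empty => simp
  | insert a I ha ih =>
    rw [Finset.sum_insert ha, Finset.biUnion_insert, Finset.sum_insert ha, Finset.erase_insert ha]
    have h1 : (E a ∪ I.biUnion E).card + (E a ∩ I.biUnion E).card
        = (E a).card + (I.biUnion E).card := Finset.card_union_add_card_inter _ _
    have h2 : (E a ∩ I.biUnion E).card ≤ ∑ e' ∈ I, (E a ∩ E e').card := by
      rw [Finset.inter_biUnion]
      exact Finset.card_biUnion_le
    have h3 : ∑ e ∈ I, ∑ e' ∈ I.erase e, (E e ∩ E e').card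
        ≤ ∑ e ∈ I, ∑ e' ∈ (insert a I).erase e, (E e ∩ E e').card := by
      refine Finset.sum_le_sum (fun e _ => ?_)
      refine Finset.sum_le_sum_of_subset (Finset.erase_subset_erase _ (Finset.subset_insert _ _))
    omega

variable {n : ℕ}

/-- Row `i` is `s` times row `j`. -/
def rowEv (i j : Fin n) (s : ℤˣ) : Finset (Sym2 (Fin n) → ℤˣ) :=
  Finset.univ.filter (fun f => ∀ m, f s(i, m) = s * f s(j, m))

lemma det_zero_of_rowEv {i j : Fin n} (hij : i ≠ j) {s : ℤˣ} {f : Sym2 (Fin n) → ℤˣ}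
    (hf : f ∈ rowEv i j s) : (symSign f).det = 0 := by
  have hf' : ∀ m, f s(i, m) = s * f s(j, m) := by simpa [rowEv] using hf
  rw [← Matrix.exists_mulVec_eq_zero_iff]
  refine ⟨Pi.single i 1 - (s : ℤ) • Pi.single j 1, ?_, ?_⟩
  · intro h
    have := congrFun h i
    simp [hij] at this
  · ext k
    have h1 : ((f s(k, i) : ℤˣ) : ℤ) = (s : ℤ) * (f s(k, j) : ℤˣ) := by
      rw [Sym2.eq_swap, hf' k, Units.val_mul, Sym2.eq_swap]
    rw [Matrix.mulVec_sub, Matrix.mulVec_smul, Matrix.mulVec_single_one, Matrix.mulVec_single_one]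
    simp only [Pi.sub_apply, Pi.smul_apply, Matrix.col_apply, Pi.zero_apply, smul_eq_mul, symSign]
    rw [h1, sub_self]

lemma rowEv_card_ge {i j : Fin n} (hij : i ≠ j) (s : ℤˣ) :
    2 ^ Fintype.card (Sym2 (Fin n)) ≤ 2 ^ n * (rowEv i j s).card := by
  classical
  set D0 : Finset (Sym2 (Fin n)) := Finset.univ.image (fun m => s(i, m)) with hD0
  have hD0card : D0.card = n := by
    rw [hD0, Finset.card_image_of_injective _ (fun a b h => (Sym2.congr_right.mp h))]
    simp
  set φ : Fin n → Fin n := fun a => if a = i then j else a with hφ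
  set c : Fin n → ℤˣ := fun a => if a = i then s else 1 with hc
  let σ : Sym2 (Fin n) → ℤˣ := Sym2.lift ⟨fun a b => c a * c b, fun a b => mul_comm _ _⟩
  let π : (Sym2 (Fin n) → ℤˣ) → (Sym2 (Fin n) → ℤˣ) := fun f x => σ x * f (Sym2.map φ x)
  have hπE : ∀ f, π f ∈ rowEv i j s := by
    intro f
    simp only [rowEv, Finset.mem_filter, Finset.mem_univ, true_and]
    intro m
    have hj : j ≠ i := hij.symm
    have hci : c i = s := by simp [hc]
    have hcj : c j = 1 := by simp [hc, hj]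
    have hφi : φ i = j := by simp [hφ]
    have hφj : φ j = j := by simp [hφ]
    have h1 : π f s(i, m) = (c i * c m) * f s(φ i, φ m) := rfl
    have h2 : π f s(j, m) = (c j * c m) * f s(φ j, φ m) := rfl
    rw [h1, h2, hci, hcj, hφi, hφj, one_mul, mul_assoc]
  have hπoff : ∀ f x, x ∉ D0 → π f x = f x := by
    intro f x
    induction x using Sym2.ind with
    | _ a b =>
      intro hx
      have ha : a ≠ i := by
        rintro rfl
        exact hx (Finset.mem_image.mpr ⟨b, Finset.mem_univ _, rfl⟩)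
      have hb : b ≠ i := by
        rintro rfl
        exact hx (Finset.mem_image.mpr ⟨a, Finset.mem_univ _, Sym2.eq_swap⟩)
      have h1 : π f s(a, b) = (c a * c b) * f s(φ a, φ b) := rfl
      have hca : c a = 1 := by simp [hc, ha]
      have hcb : c b = 1 := by simp [hc, hb]
      have hφa : φ a = a := by simp [hφ, ha]
      have hφb : φ b = b := by simp [hφ, hb]
      rw [h1, hca, hcb, hφa, hφb, one_mul, one_mul]
  have hsurj : Fintype.card ({x // x ∉ D0} → ℤˣ) ≤ (rowEv i j s).card := by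
    rw [← Finset.card_univ]
    refine Finset.card_le_card_of_surjOn (fun f x => f x.1) ?_
    intro h _
    let g : Sym2 (Fin n) → ℤˣ := fun x => if hx : x ∉ D0 then h ⟨x, hx⟩ else 1
    refine ⟨π g, Finset.mem_coe.mpr (hπE g), ?_⟩
    funext x
    show π g x.1 = h x
    rw [hπoff g x.1 x.2]
    show (if hx : x.1 ∉ D0 then h ⟨x.1, hx⟩ else 1) = h x
    rw [dif_pos x.2]
  rw [Fintype.card_fun, Fintype.card_units_int] at hsurj
  rw [← card_off_add D0, hD0card, pow_add, mul_comm]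
  exact Nat.mul_le_mul_left _ hsurj

lemma inter_card_le_aux {i j k l : Fin n} (hij : i ≠ j) (hkl : k ≠ l) (hli : l ≠ i) (hlj : l ≠ j)
    (s t : ℤˣ) {S : Finset (Sym2 (Fin n) → ℤˣ)}
    (hS : ∀ f ∈ S, f ∈ rowEv i j s ∧ f ∈ rowEv k l t) :
    S.card * 4 ^ n ≤ 256 * 2 ^ Fintype.card (Sym2 (Fin n)) := by
  classical
  set M : Finset (Fin n) := Finset.univ \ {i, j, k, l} with hM
  have hMmem : ∀ m ∈ M, m ≠ i ∧ m ≠ j ∧ m ≠ k ∧ m ≠ l := by
    intro m hm
    simpa [hM, not_or] using hm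
  have hMcard : n - 4 ≤ M.card := by
    have h1 := Finset.le_card_sdiff ({i, j, k, l} : Finset (Fin n)) (Finset.univ : Finset (Fin n))
    have h2 : ({i, j, k, l} : Finset (Fin n)).card ≤ 4 := Finset.card_le_four
    simp only [Finset.card_univ, Fintype.card_fin] at h1
    rw [hM]
    omega
  set D1 : Finset (Sym2 (Fin n)) := M.image (fun m => s(i, m)) with hD1
  set D2 : Finset (Sym2 (Fin n)) := M.image (fun m => s(l, m)) with hD2
  have hD1card : D1.card = M.card :=
    Finset.card_image_of_injective _ (fun a b h => (Sym2.congr_right.mp h))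
  have hD2card : D2.card = M.card :=
    Finset.card_image_of_injective _ (fun a b h => (Sym2.congr_right.mp h))
  have hdisj : Disjoint D1 D2 := by
    rw [Finset.disjoint_left]
    intro x hx1 hx2
    obtain ⟨m, hm, rfl⟩ := Finset.mem_image.mp hx1
    obtain ⟨m', hm', hmm⟩ := Finset.mem_image.mp hx2
    rcases Sym2.eq_iff.mp hmm with ⟨h1, _⟩ | ⟨_, h1⟩
    · exact hli h1
    · exact (hMmem m' hm').1 h1
  have hDcard : (D1 ∪ D2).card = 2 * M.card := by
    rw [Finset.card_union_of_disjoint hdisj, hD1card, hD2card]; ring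
  have hmemD1 : ∀ m, ∀ x, x = s(j, m) → x ∉ D1 := by
    intro m x hx hmem
    obtain ⟨m', hm', hmm⟩ := Finset.mem_image.mp hmem
    rw [hx] at hmm
    rcases Sym2.eq_iff.mp hmm with ⟨h1, _⟩ | ⟨_, h1⟩
    · exact hij h1
    · exact (hMmem m' hm').2.1 h1
  have hmemD2 : ∀ m, ∀ x, x = s(j, m) → x ∉ D2 := by
    intro m x hx hmem
    obtain ⟨m', hm', hmm⟩ := Finset.mem_image.mp hmem
    rw [hx] at hmm
    rcases Sym2.eq_iff.mp hmm with ⟨h1, _⟩ | ⟨_, h1⟩
    · exact hlj h1
    · exact (hMmem m' hm').2.1 h1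
  have hinj : ∀ f ∈ S, ∀ g ∈ S, (∀ x, x ∉ D1 ∪ D2 → f x = g x) → f = g := by
    intro f hf g hg hfg
    have hf1 : ∀ m, f s(i, m) = s * f s(j, m) := by
      simpa [rowEv] using (hS f hf).1
    have hf2 : ∀ m, f s(k, m) = t * f s(l, m) := by
      simpa [rowEv] using (hS f hf).2
    have hg1 : ∀ m, g s(i, m) = s * g s(j, m) := by
      simpa [rowEv] using (hS g hg).1
    have hg2 : ∀ m, g s(k, m) = t * g s(l, m) := by
      simpa [rowEv] using (hS g hg).2
    have hstep1 : ∀ m ∈ M, f s(i, m) = g s(i, m) := by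
      intro m _
      rw [hf1, hg1]
      congr 1
      refine hfg _ ?_
      rw [Finset.mem_union, not_or]
      exact ⟨hmemD1 m _ rfl, hmemD2 m _ rfl⟩
    have htt : t * t = 1 := Int.units_mul_self t
    have hkm : ∀ m ∈ M, f s(k, m) = g s(k, m) := by
      intro m hm
      by_cases hki : k = i
      · rw [hki]; exact hstep1 m hm
      · refine hfg _ ?_
        rw [Finset.mem_union, not_or]
        constructor
        · intro hmem
          obtain ⟨m', hm', hmm⟩ := Finset.mem_image.mp hmem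
          rcases Sym2.eq_iff.mp hmm with ⟨h1, _⟩ | ⟨h1, _⟩
          · exact hki h1.symm
          · exact (hMmem m hm).1 h1.symm
        · intro hmem
          obtain ⟨m', hm', hmm⟩ := Finset.mem_image.mp hmem
          rcases Sym2.eq_iff.mp hmm with ⟨h1, _⟩ | ⟨h1, _⟩
          · exact hkl h1.symm
          · exact (hMmem m hm).2.2.2 h1.symm
    have hstep2 : ∀ m ∈ M, f s(l, m) = g s(l, m) := by
      intro m hm
      have e1 : f s(l, m) = t * f s(k, m) := by
        rw [hf2 m, ← mul_assoc, htt, one_mul]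
      have e2 : g s(l, m) = t * g s(k, m) := by
        rw [hg2 m, ← mul_assoc, htt, one_mul]
      rw [e1, e2, hkm m hm]
    funext x
    by_cases hx : x ∈ D1 ∪ D2
    · rcases Finset.mem_union.mp hx with hx | hx
      · obtain ⟨m, hm, rfl⟩ := Finset.mem_image.mp hx
        exact hstep1 m hm
      · obtain ⟨m, hm, rfl⟩ := Finset.mem_image.mp hx
        exact hstep2 m hm
    · exact hfg x hx
  have hmain := card_mul_pow_le S (D1 ∪ D2) hinj
  rw [Fintype.card_units_int, hDcard] at hmain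
  have h4 : 4 ^ n ≤ 256 * 2 ^ (2 * M.card) := by
    have : 2 * n ≤ 8 + 2 * M.card := by omega
    calc 4 ^ n = 2 ^ (2 * n) := by rw [pow_mul]; norm_num
      _ ≤ 2 ^ (8 + 2 * M.card) := Nat.pow_le_pow_right (by norm_num) this
      _ = 256 * 2 ^ (2 * M.card) := by rw [pow_add]; norm_num
  calc S.card * 4 ^ n ≤ S.card * (256 * 2 ^ (2 * M.card)) := Nat.mul_le_mul_left _ h4
    _ = 256 * (S.card * 2 ^ (2 * M.card)) := by ring
    _ ≤ 256 * 2 ^ Fintype.card (Sym2 (Fin n)) := Nat.mul_le_mul_left _ hmain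

/-- The sign attached to an ordered pair: each event `row i = ± row j` gets one ordered pair. -/
def sgn (i j : Fin n) : ℤˣ := if i < j then 1 else -1

lemma rowEv_symm_mem {i j : Fin n} {s : ℤˣ} {f : Sym2 (Fin n) → ℤˣ} (hf : f ∈ rowEv i j s) :
    f ∈ rowEv j i s := by
  have hf' : ∀ m, f s(i, m) = s * f s(j, m) := by simpa [rowEv] using hf
  simp only [rowEv, Finset.mem_filter, Finset.mem_univ, true_and]
  intro m
  rw [hf' m, ← mul_assoc, Int.units_mul_self, one_mul]

/-- Two different events meet rarely. -/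
lemma inter_card_le {e e' : Fin n × Fin n} (he : e.1 ≠ e.2) (he' : e'.1 ≠ e'.2) (hne : e' ≠ e) :
    (rowEv e.1 e.2 (sgn e.1 e.2) ∩ rowEv e'.1 e'.2 (sgn e'.1 e'.2)).card * 4 ^ n
      ≤ 256 * 2 ^ Fintype.card (Sym2 (Fin n)) := by
  obtain ⟨i, j⟩ := e
  obtain ⟨k, l⟩ := e'
  simp only at he he' ⊢
  by_cases hl : l ≠ i ∧ l ≠ j
  · refine inter_card_le_aux he he' hl.1 hl.2 _ _ (fun f hf => Finset.mem_inter.mp hf)
  by_cases hk : k ≠ i ∧ k ≠ j
  · refine inter_card_le_aux he he'.symm hk.1 hk.2 (sgn i j) (sgn k l) (fun f hf => ?_)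
    have := Finset.mem_inter.mp hf
    exact ⟨this.1, rowEv_symm_mem this.2⟩
  -- both ends of the second pair lie in the first pair: it is the swapped pair
  have hswap : k = j ∧ l = i := by
    have h1 : l = i ∨ l = j := by tauto
    have h2 : k = i ∨ k = j := by tauto
    rcases h1 with h1 | h1 <;> rcases h2 with h2 | h2
    · exact absurd (h2.trans h1.symm) he'
    · exact ⟨h2, h1⟩
    · exact absurd (show (k, l) = (i, j) by rw [h1, h2]) hne
    · exact absurd (h2.trans h1.symm) he'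
  obtain ⟨rfl, rfl⟩ := hswap
  have hempty : rowEv l k (sgn l k) ∩ rowEv k l (sgn k l) = ∅ := by
    rw [Finset.eq_empty_iff_forall_notMem]
    intro f hf
    have h := Finset.mem_inter.mp hf
    have h1 : ∀ m, f s(l, m) = sgn l k * f s(k, m) := by simpa [rowEv] using h.1
    have h2 : ∀ m, f s(k, m) = sgn k l * f s(l, m) := by simpa [rowEv] using h.2
    have h3 := h2 l
    rw [h1 l] at h3
    rcases lt_or_gt_of_ne he' with hlt | hgt
    · simp only [sgn, if_pos hlt, if_neg (not_lt.mpr hlt.le)] at h3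
      have := congrArg (fun u : ℤˣ => (u : ℤ)) h3
      simp at this
      have h5 := Int.units_eq_one_or (f s(k, l))
      rcases h5 with h5 | h5 <;> simp [h5] at this
    · simp only [sgn, if_pos hgt, if_neg (not_lt.mpr hgt.le)] at h3
      have := congrArg (fun u : ℤˣ => (u : ℤ)) h3
      simp at this
      have h5 := Int.units_eq_one_or (f s(k, l))
      rcases h5 with h5 | h5 <;> simp [h5] at this
  rw [hempty]
  simp

/-- The explicit form of the lower bound. -/
theorem singProb_ge (n : ℕ) :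
    ((n : ℝ) * (n - 1)) / 2 ^ n - 256 * (n : ℝ) ^ 4 / 4 ^ n ≤ singProb n := by
  classical
  set I : Finset (Fin n × Fin n) := (Finset.univ : Finset (Fin n)).offDiag with hI
  have hIcard : I.card = n * n - n := by
    rw [hI, Finset.offDiag_card]; simp
  have hImem : ∀ e ∈ I, e.1 ≠ e.2 := by
    intro e he
    exact (Finset.mem_offDiag.mp he).2.2
  let E : Fin n × Fin n → Finset (Sym2 (Fin n) → ℤˣ) := fun e => rowEv e.1 e.2 (sgn e.1 e.2)
  have hb := bonf I E
  set N : ℕ := 2 ^ Fintype.card (Sym2 (Fin n)) with hN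
  set Sing : Finset (Sym2 (Fin n) → ℤˣ) :=
    (Finset.univ : Finset (Sym2 (Fin n) → ℤˣ)).filter (fun f => (symSign f).det = 0) with hSing
  have hU : (I.biUnion E).card ≤ Sing.card := by
    refine Finset.card_le_card (fun f hf => ?_)
    obtain ⟨e, he, hfe⟩ := Finset.mem_biUnion.mp hf
    simp only [hSing, Finset.mem_filter, Finset.mem_univ, true_and]
    exact det_zero_of_rowEv (hImem e he) hfe
  have hNpos : (0 : ℝ) < (N : ℝ) := by
    rw [hN]; positivity
  have hcard : (Fintype.card (Sym2 (Fin n) → ℤˣ) : ℝ) = (N : ℝ) := by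
    rw [Fintype.card_fun, Fintype.card_units_int]
  -- lower bound on the first sum
  have hsum1 : ((I.card : ℝ)) * ((N : ℝ) / 2 ^ n) ≤ ∑ e ∈ I, ((E e).card : ℝ) := by
    rw [← nsmul_eq_mul]
    refine Finset.card_nsmul_le_sum _ _ _ (fun e he => ?_)
    have h := rowEv_card_ge (hImem e he) (sgn e.1 e.2)
    rw [div_le_iff₀ (by positivity)]
    have h' : (N : ℝ) ≤ 2 ^ n * ((E e).card : ℝ) := by exact_mod_cast h
    linarith
  -- upper bound on the double sum
  have hsum2 : ∑ e ∈ I, ∑ e' ∈ I.erase e, ((E e ∩ E e').card : ℝ)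
      ≤ (I.card : ℝ) * ((I.card : ℝ) * (256 * (N : ℝ) / 4 ^ n)) := by
    have hin : ∀ e ∈ I, ∑ e' ∈ I.erase e, ((E e ∩ E e').card : ℝ)
        ≤ (I.card : ℝ) * (256 * (N : ℝ) / 4 ^ n) := by
      intro e he
      have h1 : ∑ e' ∈ I.erase e, ((E e ∩ E e').card : ℝ)
          ≤ ((I.erase e).card : ℝ) * (256 * (N : ℝ) / 4 ^ n) := by
        rw [← nsmul_eq_mul]
        refine Finset.sum_le_card_nsmul _ _ _ (fun e' he' => ?_)
        have hne : e' ≠ e := (Finset.mem_erase.mp he').1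
        have h' := inter_card_le (hImem e he) (hImem e' (Finset.mem_of_mem_erase he')) hne
        rw [le_div_iff₀ (by positivity)]
        exact_mod_cast h'
      have h2 : ((I.erase e).card : ℝ) ≤ (I.card : ℝ) := by
        exact_mod_cast Finset.card_erase_le
      have h3 : (0 : ℝ) ≤ 256 * (N : ℝ) / 4 ^ n := by positivity
      exact h1.trans (mul_le_mul_of_nonneg_right h2 h3)
    calc ∑ e ∈ I, ∑ e' ∈ I.erase e, ((E e ∩ E e').card : ℝ)
        ≤ ∑ _e ∈ I, (I.card : ℝ) * (256 * (N : ℝ) / 4 ^ n) := Finset.sum_le_sum hin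
      _ = _ := by rw [Finset.sum_const, nsmul_eq_mul]
  have hbR : ∑ e ∈ I, ((E e).card : ℝ) ≤ (Sing.card : ℝ)
      + ∑ e ∈ I, ∑ e' ∈ I.erase e, ((E e ∩ E e').card : ℝ) := by
    have h : ∑ e ∈ I, (E e).card ≤ Sing.card + ∑ e ∈ I, ∑ e' ∈ I.erase e, (E e ∩ E e').card := by
      omega
    exact_mod_cast h
  have hIR : (I.card : ℝ) = (n : ℝ) * (n - 1) := by
    rw [hIcard]
    have hle : n ≤ n * n := Nat.le_mul_self n
    rw [Nat.cast_sub hle]
    push_cast
    ring
  have hIle : (I.card : ℝ) * (I.card : ℝ) ≤ (n : ℝ) ^ 4 := by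
    rw [hIR]
    have hn0 : (0 : ℝ) ≤ n := Nat.cast_nonneg n
    rcases Nat.eq_zero_or_pos n with h0 | h0
    · subst h0; simp
    · have hn1 : (1 : ℝ) ≤ n := by exact_mod_cast h0
      have : (n : ℝ) - 1 ≤ n := by linarith
      have h01 : (0 : ℝ) ≤ (n : ℝ) - 1 := by linarith
      nlinarith [mul_le_mul this this h01 hn0, sq_nonneg (n : ℝ)]
  have hfinal : (I.card : ℝ) * ((N : ℝ) / 2 ^ n) - (n : ℝ) ^ 4 * (256 * (N : ℝ) / 4 ^ n)
      ≤ (Sing.card : ℝ) := by
    have h3 : (0 : ℝ) ≤ 256 * (N : ℝ) / 4 ^ n := by positivity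
    have h4 : (I.card : ℝ) * ((I.card : ℝ) * (256 * (N : ℝ) / 4 ^ n))
        ≤ (n : ℝ) ^ 4 * (256 * (N : ℝ) / 4 ^ n) := by
      rw [← mul_assoc]
      exact mul_le_mul_of_nonneg_right hIle h3
    linarith
  unfold singProb
  rw [← hSing, hcard, le_div_iff₀ hNpos]
  rw [hIR] at hfinal
  calc (((n : ℝ) * (n - 1)) / 2 ^ n - 256 * (n : ℝ) ^ 4 / 4 ^ n) * (N : ℝ)
      = (n : ℝ) * (n - 1) * ((N : ℝ) / 2 ^ n) - (n : ℝ) ^ 4 * (256 * (N : ℝ) / 4 ^ n) := by ring
    _ ≤ _ := hfinal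

/-- The asymptotic form of the lower bound. -/
theorem singProb_asymp (ε : ℝ) (hε : 0 < ε) :
    ∀ᶠ n : ℕ in atTop, (1 - ε) * ((n : ℝ) ^ 2 / 2 ^ n) ≤ singProb n := by
  have h1 : Tendsto (fun n : ℕ => (n : ℝ) ^ 2 / (2 : ℝ) ^ n) atTop (𝓝 0) :=
    tendsto_pow_const_div_const_pow_of_one_lt 2 (by norm_num)
  have h2 : Tendsto (fun n : ℕ => (1 : ℝ) / (n : ℝ)) atTop (𝓝 0) :=
    tendsto_one_div_atTop_nhds_zero_nat
  have h3 : ∀ᶠ n : ℕ in atTop, (n : ℝ) ^ 2 / (2 : ℝ) ^ n < ε / 512 :=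
    (tendsto_order.mp h1).2 _ (by positivity)
  have h4 : ∀ᶠ n : ℕ in atTop, (1 : ℝ) / (n : ℝ) < ε / 2 :=
    (tendsto_order.mp h2).2 _ (by positivity)
  filter_upwards [h3, h4, eventually_ge_atTop 1] with n hn3 hn4 hn1
  refine le_trans ?_ (singProb_ge n)
  have hnpos : (0 : ℝ) < n := by exact_mod_cast hn1
  have h2pos : (0 : ℝ) < 2 ^ n := by positivity
  have h44 : (4 : ℝ) ^ n = 2 ^ n * 2 ^ n := by
    rw [← mul_pow]; norm_num
  have h5 : (n : ℝ) ≤ ε / 2 * (n : ℝ) ^ 2 := by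
    rw [div_lt_iff₀ hnpos] at hn4
    nlinarith
  have h6 : 256 * (n : ℝ) ^ 4 / 2 ^ n ≤ ε / 2 * (n : ℝ) ^ 2 := by
    have hq : (0 : ℝ) ≤ (n : ℝ) ^ 2 := by positivity
    have h7 : (n : ℝ) ^ 2 / 2 ^ n ≤ ε / 512 := hn3.le
    calc 256 * (n : ℝ) ^ 4 / 2 ^ n = 256 * (n : ℝ) ^ 2 * ((n : ℝ) ^ 2 / 2 ^ n) := by ring
      _ ≤ 256 * (n : ℝ) ^ 2 * (ε / 512) := mul_le_mul_of_nonneg_left h7 (by positivity)
      _ = ε / 2 * (n : ℝ) ^ 2 := by ring
  have h8 : (1 - ε) * ((n : ℝ) ^ 2 / 2 ^ n)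
      = ((n : ℝ) ^ 2 - ε * (n : ℝ) ^ 2) / 2 ^ n := by ring
  have h9 : ((n : ℝ) * (n - 1)) / 2 ^ n - 256 * (n : ℝ) ^ 4 / 4 ^ n
      = ((n : ℝ) ^ 2 - (n : ℝ) - 256 * (n : ℝ) ^ 4 / 2 ^ n) / 2 ^ n := by
    rw [h44]; field_simp
  rw [h8, h9]
  apply div_le_div_of_nonneg_right _ h2pos.le
  linarith

/-- For every `n`, `q_n ≥ n (n - 1) 2^(-n) - 256 n^4 4^(-n)`; hence `q_n ≥ (1 - ε) n^2 2^(-n)` for
all large `n`. -/
theorem result :
    (∀ n : ℕ, ((n : ℝ) * (n - 1)) / 2 ^ n - 256 * (n : ℝ) ^ 4 / 4 ^ n ≤ singProb n) ∧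
    (∀ ε : ℝ, 0 < ε → ∀ᶠ n : ℕ in atTop, (1 - ε) * ((n : ℝ) ^ 2 / 2 ^ n) ≤ singProb n) :=
  ⟨singProb_ge, singProb_asymp⟩

end Vale.Agent.Results.P160.A_polyfactor
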